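import Vale.Agent.P229.Geo.Darboux

/-!
# P229 seat A: power charts of the plane

`Psi q p` is `z ↦ p + z ^ q` (principal branch) and `Phi s p` its inverse for `s * q = 1`.
-/

namespace Vale.Agent.P229.Geo

open scoped RealInnerProductSpace Topology
open Filter Complex

noncomputable def toC : P2 →L[ℝ] ℂ := Complex.equivRealProdCLM.symm.toContinuousLinearMap

noncomputable def ofC : ℂ →L[ℝ] P2 := Complex.equivRealProdCLM.toContinuousLinearMap

@[simp] theorem toC_re (x : P2) : (toC x).re = x.1 := by simp [toC]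

@[simp] theorem toC_im (x : P2) : (toC x).im = x.2 := by simp [toC]

@[simp] theorem ofC_fst (z : ℂ) : (ofC z).1 = z.re := by simp [ofC]

@[simp] theorem ofC_snd (z : ℂ) : (ofC z).2 = z.im := by simp [ofC]

@[simp] theorem toC_ofC (z : ℂ) : toC (ofC z) = z := by apply Complex.ext <;> simp

@[simp] theorem ofC_toC (x : P2) : ofC (toC x) = x := by ext <;> simp

noncomputable def Psi (q : ℝ) (p : ℂ) (z : P2) : P2 := ofC (p + exp (q * log (toC z)))

noncomputable def Phi (s : ℝ) (p : ℂ) (x : P2) : P2 := ofC (exp (s * log (toC x - p)))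

/-- The plane slit along the negative axis. -/
def Slit : Set P2 := {z | toC z ∈ slitPlane}

theorem isOpen_slit : IsOpen Slit := isOpen_slitPlane.preimage toC.continuous

theorem slit_ne_zero {z : P2} (hz : z ∈ Slit) : toC z ≠ 0 := slitPlane_ne_zero hz

theorem exp_mem_slit {w : ℂ} (h : |w.im| < Real.pi) : exp w ∈ slitPlane := by
  obtain ⟨h1, h2⟩ := abs_lt.1 h
  rw [mem_slitPlane_iff_arg]
  refine ⟨?_, exp_ne_zero w⟩
  rw [← log_im, log_exp h1 h2.le]
  exact h2.ne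

theorem Phi_Psi {q s : ℝ} {p : ℂ} {z : P2} (hsq : s * q = 1) (hz : z ∈ Slit)
    (h : |q * (toC z).arg| < Real.pi) :
    toC (Psi q p z) - p ∈ slitPlane ∧ Phi s p (Psi q p z) = z := by
  have him : ((q : ℂ) * log (toC z)).im = q * (toC z).arg := by simp [log_im]
  obtain ⟨h1, h2⟩ := abs_lt.1 h
  have e : toC (Psi q p z) - p = exp (q * log (toC z)) := by simp [Psi]
  refine ⟨?_, ?_⟩
  · rw [e]
    exact exp_mem_slit (by rw [him]; exact h)
  · unfold Phi
    rw [e, log_exp (by rw [him]; exact h1) (by rw [him]; exact h2.le), ← mul_assoc,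
      ← ofReal_mul, hsq, ofReal_one, one_mul, exp_log (slit_ne_zero hz), ofC_toC]

theorem Psi_Phi {q s : ℝ} {p : ℂ} {x : P2} (hsq : q * s = 1) (hs : |s| < 1)
    (hx : toC x - p ∈ slitPlane) : Psi q p (Phi s p x) = x := by
  have hy := slitPlane_ne_zero hx
  have ha : |((s : ℂ) * log (toC x - p)).im| < Real.pi := by
    have := abs_arg_le_pi (toC x - p)
    simp only [mul_im, ofReal_re, ofReal_im, log_im, zero_mul, add_zero, abs_mul]
    nlinarith [Real.pi_pos, abs_nonneg (toC x - p).arg, abs_nonneg s]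
  obtain ⟨h1, h2⟩ := abs_lt.1 ha
  unfold Psi
  simp only [Phi, toC_ofC]
  rw [log_exp h1 h2.le, ← mul_assoc, ← ofReal_mul, hsq, ofReal_one, one_mul, exp_log hy]
  simp

theorem norm_Psi_sub {q : ℝ} {p : ℂ} {z : P2} :
    ‖toC (Psi q p z) - p‖ = Real.exp (q * (log (toC z)).re) := by
  simp [Psi, norm_exp]

/-- The complex derivative of the chart. -/
noncomputable def dPsi (q : ℝ) (z : P2) : ℂ :=
  exp (q * log (toC z)) * ((q : ℂ) * (toC z)⁻¹)

/-- Multiplication by a complex number, on the plane. -/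
noncomputable def mulP (d : ℂ) : P2 →L[ℝ] P2 := ofC.comp ((d • (1 : ℂ →L[ℝ] ℂ)).comp toC)

theorem mulP_apply (d : ℂ) (v : P2) : mulP d v = ofC (d * toC v) := by simp [mulP]

theorem mulP_inner (d : ℂ) (v w : P2) :
    (mulP d v).1 * (mulP d w).1 + (mulP d v).2 * (mulP d w).2 =
      normSq d * (v.1 * w.1 + v.2 * w.2) := by
  simp [mulP_apply, normSq_apply, mul_re, mul_im]
  ring

theorem hasFDerivAt_Psi (q : ℝ) (p : ℂ) {z : P2} (hz : z ∈ Slit) :
    HasFDerivAt (Psi q p) (mulP (dPsi q z)) z := by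
  have h : HasDerivAt (fun w : ℂ => p + exp (q * log w)) (dPsi q z) (toC z) :=
    ((((hasStrictDerivAt_log hz).hasDerivAt).const_mul (q : ℂ)).cexp).const_add p
  exact ofC.hasFDerivAt.comp z
    (h.complexToReal_fderiv.comp z toC.hasFDerivAt)

theorem normSq_dPsi {q : ℝ} (hq : 0 < q) {z : P2} (hz : z ∈ Slit) :
    normSq (dPsi q z) = Real.exp (2 * ((q - 1) * (log (toC z)).re + Real.log q)) := by
  have h0 := slit_ne_zero hz
  have hn : ‖toC z‖ = Real.exp (log (toC z)).re := by rw [← norm_exp, exp_log h0]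
  rw [normSq_eq_norm_sq]
  have e : ‖dPsi q z‖ = Real.exp ((q - 1) * (log (toC z)).re + Real.log q) := by
    rw [dPsi, norm_mul, norm_mul, norm_inv, norm_exp, hn, Complex.norm_real,
      Real.norm_of_nonneg hq.le, Real.exp_add, Real.exp_log hq, ← Real.exp_neg]
    rw [mul_comm q, ← mul_assoc, ← Real.exp_add]
    congr 2
    simp
    ring
  rw [e, sq, ← Real.exp_add]
  ring_nf

theorem contDiffAt_Psi (q : ℝ) (p : ℂ) {z : P2} (hz : z ∈ Slit) :
    ContDiffAt ℝ (⊤ : ℕ∞) (Psi q p) z := by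
  have h : ContDiffAt ℝ (⊤ : ℕ∞) (fun w : ℂ => p + exp (q * log w)) (toC z) :=
    (contDiffAt_const.add ((contDiffAt_const.mul (contDiffAt_log hz)).cexp)).restrict_scalars ℝ
  exact ofC.contDiff.contDiffAt.comp z (h.comp z toC.contDiff.contDiffAt)

theorem continuousAt_Psi (q : ℝ) (p : ℂ) {z : P2} (hz : z ∈ Slit) : ContinuousAt (Psi q p) z :=
  (hasFDerivAt_Psi q p hz).continuousAt

theorem contDiffOn_Phi (s : ℝ) (p : ℂ) :
    ContDiffOn ℝ (⊤ : ℕ∞) (Phi s p) {x | toC x - p ∈ slitPlane} := by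
  intro x hx
  refine ContDiffAt.contDiffWithinAt ?_
  have h : ContDiffAt ℝ (⊤ : ℕ∞) (fun w : ℂ => exp (s * log w)) (toC x - p) :=
    (((contDiffAt_const.mul (contDiffAt_log hx)).cexp)).restrict_scalars ℝ
  exact ofC.contDiff.contDiffAt.comp x
    (ContDiffAt.comp (g := fun w : ℂ => exp (s * log w)) (f := fun y => toC y - p) x h
      (toC.contDiff.contDiffAt.sub contDiffAt_const))

theorem isOpen_shiftSlit (p : ℂ) : IsOpen {x : P2 | toC x - p ∈ slitPlane} :=
  isOpen_slitPlane.preimage (toC.continuous.sub continuous_const)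

/-- An isometric map pulled back by the chart. -/
theorem isom_pullback {φ ψ : P2 → ℝ} {U V : Set P2} {F : P2 → R3} {q : ℝ} {p : ℂ}
    (hU : IsOpen U) (hF : ContDiffOn ℝ (⊤ : ℕ∞) F U) (hI : IsIsom φ U F) (hq : 0 < q)
    (hV : ∀ z ∈ V, z ∈ Slit ∧ Psi q p z ∈ U ∧
      φ (Psi q p z) + (q - 1) * (log (toC z)).re + Real.log q = ψ z) :
    IsIsom ψ V (F ∘ Psi q p) := by
  intro z hz v w
  obtain ⟨hs, hu, he⟩ := hV z hz
  rw [((differentiableAt_of hU hF hu).hasFDerivAt.comp z (hasFDerivAt_Psi q p hs)).fderiv]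
  simp only [ContinuousLinearMap.comp_apply]
  rw [hI _ hu, mulP_inner, normSq_dPsi hq hs, ← mul_assoc, ← Real.exp_add, ← he]
  ring_nf

/-! ### Push-forward of a compactly supported function -/

open Classical in
noncomputable def push (V : Set P2) (f : P2 → P2) (ψ : P2 → ℝ) (x : P2) : ℝ :=
  if x ∈ V then ψ (f x) else 0

theorem tsupport_push {V K : Set P2} {f : P2 → P2} {ψ : P2 → ℝ} (hK : IsClosed K)
    (h : ∀ x ∈ V, f x ∈ tsupport ψ → x ∈ K) : tsupport (push V f ψ) ⊆ K := by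
  refine closure_minimal (fun x hx => ?_) hK
  by_cases hv : x ∈ V
  · refine h x hv (subset_tsupport ψ ?_)
    simpa [push, hv] using hx
  · simp [push, hv] at hx

theorem push_eqOn {V : Set P2} (hV : IsOpen V) {f : P2 → P2} {ψ : P2 → ℝ} {x : P2} (hx : x ∈ V) :
    push V f ψ =ᶠ[𝓝 x] ψ ∘ f := by
  filter_upwards [hV.mem_nhds hx] with y hy
  simp [push, hy]

theorem contDiff_push {V K : Set P2} {f : P2 → P2} {ψ : P2 → ℝ} (hV : IsOpen V)
    (hf : ContDiffOn ℝ (⊤ : ℕ∞) f V) (hψ : ContDiff ℝ (⊤ : ℕ∞) ψ) (hK : IsClosed K)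
    (hKV : K ⊆ V) (h : ∀ x ∈ V, f x ∈ tsupport ψ → x ∈ K) :
    ContDiff ℝ (⊤ : ℕ∞) (push V f ψ) := by
  rw [contDiff_iff_contDiffAt]
  intro x
  by_cases hx : x ∈ V
  · exact (hψ.contDiffAt.comp x (hf.contDiffAt (hV.mem_nhds hx))).congr_of_eventuallyEq
      (push_eqOn hV hx)
  · refine (contDiffAt_const (c := (0 : ℝ))).congr_of_eventuallyEq ?_
    exact notMem_tsupport_iff_eventuallyEq.1 fun hh => hx (hKV (tsupport_push hK h hh))

/-- Uniform bound for the derivatives of a push-forward. -/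
theorem push_bound {V K : Set P2} {f : P2 → P2} (hV : IsOpen V)
    (hf : ContDiffOn ℝ (⊤ : ℕ∞) f V) (hK : IsCompact K) (hKV : K ⊆ V) (j : ℕ) :
    ∃ A : ℝ, 1 ≤ A ∧ ∀ (ψ : P2 → ℝ) (ε : ℝ), ContDiff ℝ (⊤ : ℕ∞) ψ → 0 ≤ ε →
      (∀ y, ∀ i : ℕ, i ≤ j → ‖iteratedFDeriv ℝ i ψ y‖ ≤ ε) →
      (∀ x ∈ V, f x ∈ tsupport ψ → x ∈ K) →
      ∀ x, ∀ k : ℕ, k ≤ j → ‖iteratedFDeriv ℝ k (push V f ψ) x‖ ≤ A * ε := by
  have hb : ∀ i : ℕ, ∃ B : ℝ, ∀ x ∈ K, ‖iteratedFDerivWithin ℝ i f V x‖ ≤ B := fun i =>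
    hK.exists_bound_of_continuousOn ((hf.continuousOn_iteratedFDerivWithin
      (WithTop.coe_le_coe.2 le_top) hV.uniqueDiffOn).mono hKV)
  choose B hB using hb
  set D : ℝ := 1 + ∑ i ∈ Finset.range (j + 1), |B i| with hD
  have hD1 : 1 ≤ D := by rw [hD]; simp; positivity
  set A : ℝ := (j.factorial : ℝ) * D ^ j with hA
  have hj : (1 : ℝ) ≤ j.factorial := by exact_mod_cast Nat.factorial_pos j
  have hA1 : 1 ≤ A := one_le_mul_of_one_le_of_one_le hj (one_le_pow₀ hD1)
  refine ⟨A, hA1, fun ψ ε hψ hε hψb hsup x k hk => ?_⟩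
  by_cases hx : x ∈ K
  · rw [((push_eqOn hV (hKV hx)).iteratedFDeriv ℝ k).eq_of_nhds,
      ← iteratedFDerivWithin_of_isOpen k hV (hKV hx)]
    refine (norm_iteratedFDerivWithin_comp_le (g := ψ) (t := Set.univ) (C := ε) (D := D)
      hψ.contDiffOn hf (WithTop.coe_le_coe.2 le_top) uniqueDiffOn_univ hV.uniqueDiffOn
      (Set.mapsTo_univ _ _) (hKV hx) ?_ ?_).trans ?_
    · intro i hi
      rw [iteratedFDerivWithin_univ]
      exact hψb _ i (hi.trans hk)
    · intro i h1 hi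
      calc ‖iteratedFDerivWithin ℝ i f V x‖ ≤ |B i| := (hB i x hx).trans (le_abs_self _)
        _ ≤ D := by
            rw [hD]
            have := Finset.single_le_sum (f := fun a => |B a|) (fun a _ => abs_nonneg _)
              (Finset.mem_range.2 (Nat.lt_succ_of_le (hi.trans hk)))
            linarith
        _ ≤ D ^ i := le_self_pow₀ hD1 (by omega)
    · have h1 : (k.factorial : ℝ) ≤ j.factorial := by exact_mod_cast Nat.factorial_le hk
      have h2 : D ^ k ≤ D ^ j := pow_le_pow_right₀ hD1 hk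
      calc (k.factorial : ℝ) * ε * D ^ k ≤ (j.factorial : ℝ) * ε * D ^ j := by gcongr
        _ = A * ε := by rw [hA]; ring
  · have h0 : iteratedFDeriv ℝ k (push V f ψ) x = 0 := by
      by_contra hh
      exact hx (tsupport_push hK.isClosed hsup (support_iteratedFDeriv_subset k hh))
    rw [h0, norm_zero]
    positivity

end Vale.Agent.P229.Geo
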