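import Vale.Agent.P229.Interfaces

/-!
# P229 seat A: the Gauss and Darboux equations of an isometric immersion

`F` is isometric for `exp (2 φ) δ` on an open set. The normal parts of the second derivatives are
written without a choice of unit normal, and the determinant trick replaces the cross product.
-/

namespace Vale.Agent.P229.Geo

open scoped RealInnerProductSpace
open Filter Topology

/-- The first coordinate vector. -/
def e₁ : P2 := (1, 0)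

/-- The second coordinate vector. -/
def e₂ : P2 := (0, 1)

/-- Partial derivative of a map into space. -/
noncomputable def pd (v : P2) (F : P2 → R3) (x : P2) : R3 := fderiv ℝ F x v

noncomputable def W11 (φ : P2 → ℝ) (F : P2 → R3) (x : P2) : R3 :=
  pd e₁ (pd e₁ F) x - d1 φ x • pd e₁ F x + d2 φ x • pd e₂ F x

noncomputable def W12 (φ : P2 → ℝ) (F : P2 → R3) (x : P2) : R3 :=
  pd e₁ (pd e₂ F) x - d2 φ x • pd e₁ F x - d1 φ x • pd e₂ F x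

noncomputable def W22 (φ : P2 → ℝ) (F : P2 → R3) (x : P2) : R3 :=
  pd e₂ (pd e₂ F) x + d1 φ x • pd e₁ F x - d2 φ x • pd e₂ F x

/-- The conformal factor. -/
noncomputable def dens (φ : P2 → ℝ) (x : P2) : ℝ := Real.exp (2 * φ x)

theorem dens_pos (φ : P2 → ℝ) (x : P2) : 0 < dens φ x := Real.exp_pos _

theorem hasFDerivAt_dens {φ : P2 → ℝ} {x : P2} (hφ : ContDiff ℝ (⊤ : ℕ∞) φ) :
    HasFDerivAt (dens φ) ((2 * dens φ x) • fderiv ℝ φ x) x := by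
  have h := (((hφ.differentiable (by simp) x).hasFDerivAt).const_mul (2 : ℝ)).exp
  have e : dens φ = fun y => Real.exp (2 * φ y) := rfl
  rw [e]
  refine h.congr_fderiv ?_
  apply ContinuousLinearMap.ext
  intro v
  show Real.exp (2 * φ x) * (2 * fderiv ℝ φ x v) = 2 * dens φ x * fderiv ℝ φ x v
  simp only [dens]
  ring

theorem contDiff_dd {f : P2 → ℝ} (hf : ContDiff ℝ (⊤ : ℕ∞) f) (v : P2) :
    ContDiff ℝ (⊤ : ℕ∞) (fun x => fderiv ℝ f x v) :=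
  (hf.fderiv_right (by simp)).clm_apply contDiff_const

theorem contDiffOn_pd {U : Set P2} (hU : IsOpen U) {F : P2 → R3}
    (hF : ContDiffOn ℝ (⊤ : ℕ∞) F U) (v : P2) : ContDiffOn ℝ (⊤ : ℕ∞) (pd v F) U :=
  (hF.fderiv_of_isOpen hU (by simp)).clm_apply contDiffOn_const

theorem differentiableAt_of {U : Set P2} (hU : IsOpen U) {F : P2 → R3}
    (hF : ContDiffOn ℝ (⊤ : ℕ∞) F U) {x : P2} (hx : x ∈ U) : DifferentiableAt ℝ F x :=
  (hF.contDiffAt (hU.mem_nhds hx)).differentiableAt (by simp)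

theorem pd_comm {U : Set P2} (hU : IsOpen U) {F : P2 → R3} (hF : ContDiffOn ℝ (⊤ : ℕ∞) F U)
    {x : P2} (hx : x ∈ U) (v w : P2) : pd v (pd w F) x = pd w (pd v F) x := by
  have hd : DifferentiableAt ℝ (fderiv ℝ F) x :=
    ((hF.fderiv_of_isOpen hU (m := (⊤ : ℕ∞)) (by simp)).contDiffAt
      (hU.mem_nhds hx)).differentiableAt (by simp)
  have hs := (hF.contDiffAt (hU.mem_nhds hx)).isSymmSndFDerivAt
    (by rw [minSmoothness_of_isRCLikeNormedField]; exact WithTop.coe_le_coe.2 le_top)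
  have e : ∀ a b : P2, pd a (pd b F) x = fderiv ℝ (fderiv ℝ F) x a b := by
    intro a b
    show fderiv ℝ (fun y => fderiv ℝ F y b) x a = _
    rw [fderiv_clm_apply hd (differentiableAt_const b)]
    simp
  rw [e, e]
  exact hs v w

section Isom

variable {φ : P2 → ℝ} {U : Set P2} {F : P2 → R3}

theorem inner_pd (hI : IsIsom φ U F) {x : P2} (hx : x ∈ U) :
    ⟪pd e₁ F x, pd e₁ F x⟫ = dens φ x ∧ ⟪pd e₁ F x, pd e₂ F x⟫ = 0 ∧
      ⟪pd e₂ F x, pd e₁ F x⟫ = 0 ∧ ⟪pd e₂ F x, pd e₂ F x⟫ = dens φ x := by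
  refine ⟨?_, ?_, ?_, ?_⟩ <;>
    · simp only [pd]
      rw [hI x hx]
      simp [e₁, e₂, dens]

/-- Derivative of an inner product which agrees with a known function near the point. -/
theorem inner_deriv {A B : P2 → R3} {g : P2 → ℝ} {L : P2 →L[ℝ] ℝ} {x : P2}
    (hA : DifferentiableAt ℝ A x) (hB : DifferentiableAt ℝ B x)
    (hg : ∀ᶠ y in 𝓝 x, ⟪A y, B y⟫ = g y) (hL : HasFDerivAt g L x) (v : P2) :
    ⟪pd v A x, B x⟫ + ⟪A x, pd v B x⟫ = L v := by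
  have h := fderiv_inner_apply ℝ hA hB v
  have e : fderiv ℝ (fun y => ⟪A y, B y⟫) x = L := by
    rw [← hL.fderiv]
    exact Filter.EventuallyEq.fderiv_eq hg
  rw [e] at h
  rw [pd, pd]
  linarith

variable (hU : IsOpen U) (hφ : ContDiff ℝ (⊤ : ℕ∞) φ) (hF : ContDiffOn ℝ (⊤ : ℕ∞) F U)
  (hI : IsIsom φ U F)

include hU hφ hF hI

theorem first_order {x : P2} (hx : x ∈ U) :
    ⟪pd e₁ (pd e₁ F) x, pd e₁ F x⟫ = d1 φ x * dens φ x ∧
    ⟪pd e₁ (pd e₁ F) x, pd e₂ F x⟫ = -(d2 φ x * dens φ x) ∧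
    ⟪pd e₁ (pd e₂ F) x, pd e₁ F x⟫ = d2 φ x * dens φ x ∧
    ⟪pd e₁ (pd e₂ F) x, pd e₂ F x⟫ = d1 φ x * dens φ x ∧
    ⟪pd e₂ (pd e₂ F) x, pd e₁ F x⟫ = -(d1 φ x * dens φ x) ∧
    ⟪pd e₂ (pd e₂ F) x, pd e₂ F x⟫ = d2 φ x * dens φ x := by
  have da := fun v : P2 => differentiableAt_of hU (contDiffOn_pd hU hF v) hx
  have ev : ∀ᶠ y in 𝓝 x, y ∈ U := hU.mem_nhds hx
  have g11 := inner_deriv (da e₁) (da e₁) (ev.mono fun y hy => (inner_pd hI hy).1)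
    (hasFDerivAt_dens hφ)
  have g22 := inner_deriv (da e₂) (da e₂) (ev.mono fun y hy => (inner_pd hI hy).2.2.2)
    (hasFDerivAt_dens hφ)
  have g12 := inner_deriv (da e₁) (da e₂) (ev.mono fun y hy => (inner_pd hI hy).2.1)
    (hasFDerivAt_const (0 : ℝ) x)
  have c := pd_comm hU hF hx e₂ e₁
  have a1 := g11 e₁
  have a2 := g11 e₂
  have b1 := g22 e₁
  have b2 := g22 e₂
  have m1 := g12 e₁
  have m2 := g12 e₂
  have s : ∀ a b b' : P2,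
      ⟪pd a F x, pd b (pd b' F) x⟫ = ⟪pd b (pd b' F) x, pd a F x⟫ :=
    fun a b b' => real_inner_comm _ _
  simp only [smul_apply, smul_eq_mul, zero_apply, s, c] at a1 a2 b1 b2 m1 m2
  simp only [d1, d2, ← e₁.eq_def, ← e₂.eq_def]
  refine ⟨?_, ?_, ?_, ?_, ?_, ?_⟩ <;> linarith

theorem W_orth {x : P2} (hx : x ∈ U) :
    (⟪W11 φ F x, pd e₁ F x⟫ = 0 ∧ ⟪W11 φ F x, pd e₂ F x⟫ = 0) ∧
    (⟪W12 φ F x, pd e₁ F x⟫ = 0 ∧ ⟪W12 φ F x, pd e₂ F x⟫ = 0) ∧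
    (⟪W22 φ F x, pd e₁ F x⟫ = 0 ∧ ⟪W22 φ F x, pd e₂ F x⟫ = 0) := by
  obtain ⟨f1, f2, f3, f4, f5, f6⟩ := first_order hU hφ hF hI hx
  obtain ⟨i1, i2, i3, i4⟩ := inner_pd hI hx
  refine ⟨⟨?_, ?_⟩, ⟨?_, ?_⟩, ?_, ?_⟩ <;>
    · simp only [W11, W12, W22, inner_add_left, inner_sub_left, real_inner_smul_left, f1, f2, f3,
        f4, f5, f6, i1, i2, i3, i4]
      ring

/-- The Gauss equation. -/
theorem gauss {x : P2} (hx : x ∈ U) :
    ⟪W11 φ F x, W22 φ F x⟫ - ⟪W12 φ F x, W12 φ F x⟫ = -lap φ x * dens φ x := by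
  have ev : ∀ᶠ y in 𝓝 x, y ∈ U := hU.mem_nhds hx
  have hd : ∀ v w : P2, DifferentiableAt ℝ (pd v (pd w F)) x := fun v w =>
    differentiableAt_of hU (contDiffOn_pd hU (contDiffOn_pd hU hF w) v) hx
  have h1 := fun v : P2 => differentiableAt_of hU (contDiffOn_pd hU hF v) hx
  have hp1 := (((contDiff_dd hφ e₁).differentiable (by simp) x).hasFDerivAt).mul
    (hasFDerivAt_dens (x := x) hφ)
  have hp2 := ((((contDiff_dd hφ e₂).differentiable (by simp) x).hasFDerivAt).mul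
    (hasFDerivAt_dens (x := x) hφ)).neg
  have t2 := inner_deriv (hd e₁ e₁) (h1 e₂)
    (ev.mono fun y hy => (first_order hU hφ hF hI hy).2.1) hp2 e₂
  have t1 := inner_deriv (hd e₁ e₂) (h1 e₂)
    (ev.mono fun y hy => (first_order hU hφ hF hI hy).2.2.2.1) hp1 e₁
  have c3 : pd e₂ (pd e₁ (pd e₁ F)) x = pd e₁ (pd e₁ (pd e₂ F)) x := by
    rw [pd_comm hU (contDiffOn_pd hU hF e₁) hx e₂ e₁]
    have : pd e₂ (pd e₁ F) =ᶠ[𝓝 x] pd e₁ (pd e₂ F) :=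
      ev.mono fun y hy => pd_comm hU hF hy e₂ e₁
    rw [pd, this.fderiv_eq, ← pd]
  rw [c3] at t2
  obtain ⟨f1, f2, f3, f4, f5, f6⟩ := first_order hU hφ hF hI hx
  obtain ⟨i1, i2, i3, i4⟩ := inner_pd hI hx
  have s : ∀ a b b' : P2,
      ⟪pd a F x, pd b (pd b' F) x⟫ = ⟪pd b (pd b' F) x, pd a F x⟫ :=
    fun a b b' => real_inner_comm _ _
  simp only [W11, W12, W22, inner_add_left, inner_sub_left, inner_add_right, inner_sub_right,
    real_inner_smul_left, real_inner_smul_right, f1, f2, f3, f4, f5, f6, i1, i2, i3, i4,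
    s]
  simp only [neg_apply, add_apply, smul_apply, smul_eq_mul] at t1 t2
  have u1 : ∀ g : P2 → ℝ, d1 g = fun y => fderiv ℝ g y (1, 0) := fun g => rfl
  have u2 : ∀ g : P2 → ℝ, d2 g = fun y => fderiv ℝ g y (0, 1) := fun g => rfl
  simp only [lap, u1, u2]
  simp only [e₁, e₂] at t1 t2 ⊢
  linear_combination t2 - t1

omit hU hφ hF hI in
/-- The triple product. -/
def trip (a b c : R3) : ℝ :=
  a 0 * (b 1 * c 2 - b 2 * c 1) - a 1 * (b 0 * c 2 - b 2 * c 0) + a 2 * (b 0 * c 1 - b 1 * c 0)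

omit hU hφ hF hI in
theorem trip_gram (a b f g : R3) :
    trip a f g * trip b f g =
      ⟪a, b⟫ * (⟪f, f⟫ * ⟪g, g⟫ - ⟪f, g⟫ * ⟪g, f⟫) -
        ⟪a, f⟫ * (⟪f, b⟫ * ⟪g, g⟫ - ⟪f, g⟫ * ⟪g, b⟫) +
        ⟪a, g⟫ * (⟪f, b⟫ * ⟪g, f⟫ - ⟪f, f⟫ * ⟪g, b⟫) := by
  simp only [trip, PiLp.inner_apply, Fin.sum_univ_three, RCLike.inner_apply, conj_trivial]
  ring

/-- Contracting the Gauss equation with a fixed vector. -/
theorem contract {x : P2} (hx : x ∈ U) (ν : R3) :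
    ⟪W11 φ F x, ν⟫ * ⟪W22 φ F x, ν⟫ - ⟪W12 φ F x, ν⟫ ^ 2 =
      -lap φ x * (dens φ x * ⟪ν, ν⟫ - (⟪pd e₁ F x, ν⟫ ^ 2 + ⟪pd e₂ F x, ν⟫ ^ 2)) := by
  have hg := gauss hU hφ hF hI hx
  have hE := dens_pos φ x
  obtain ⟨⟨o1, o2⟩, ⟨o3, o4⟩, o5, o6⟩ := W_orth hU hφ hF hI hx
  obtain ⟨i1, i2, i3, i4⟩ := inner_pd hI hx
  have k : ∀ a b : R3, trip a (pd e₁ F x) (pd e₂ F x) * trip b (pd e₁ F x) (pd e₂ F x) =
      dens φ x ^ 2 * ⟪a, b⟫ - dens φ x * (⟪a, pd e₁ F x⟫ * ⟪pd e₁ F x, b⟫ +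
        ⟪a, pd e₂ F x⟫ * ⟪pd e₂ F x, b⟫) := by
    intro a b
    rw [trip_gram, i1, i2, i3, i4]
    ring
  have n0 := k ν ν
  have n1 := k (W11 φ F x) ν
  have n2 := k (W22 φ F x) ν
  have n3 := k (W12 φ F x) ν
  have q1 := k (W11 φ F x) (W22 φ F x)
  have q2 := k (W12 φ F x) (W12 φ F x)
  simp only [o1, o2, o3, o4, o5, o6, zero_mul, add_zero, mul_zero, sub_zero] at n1 n2 n3 q1 q2
  rw [real_inner_comm (pd e₁ F x) ν, real_inner_comm (pd e₂ F x) ν] at n0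
  generalize trip ν (pd e₁ F x) (pd e₂ F x) = D₀ at n0 n1 n2 n3
  generalize trip (W11 φ F x) (pd e₁ F x) (pd e₂ F x) = D₁ at n1 q1
  generalize trip (W22 φ F x) (pd e₁ F x) (pd e₂ F x) = D₂ at n2 q1
  generalize trip (W12 φ F x) (pd e₁ F x) (pd e₂ F x) = D₃ at n3 q2
  have key : dens φ x ^ 4 *
      (⟪W11 φ F x, ν⟫ * ⟪W22 φ F x, ν⟫ - ⟪W12 φ F x, ν⟫ ^ 2) = dens φ x ^ 4 *
      (-lap φ x * (dens φ x * ⟪ν, ν⟫ - (⟪pd e₁ F x, ν⟫ ^ 2 + ⟪pd e₂ F x, ν⟫ ^ 2))) := by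
    have a1 : dens φ x ^ 2 * ⟪W11 φ F x, ν⟫ = D₁ * D₀ := n1.symm
    have a2 : dens φ x ^ 2 * ⟪W22 φ F x, ν⟫ = D₂ * D₀ := n2.symm
    have a3 : dens φ x ^ 2 * ⟪W12 φ F x, ν⟫ = D₃ * D₀ := n3.symm
    calc dens φ x ^ 4 * (⟪W11 φ F x, ν⟫ * ⟪W22 φ F x, ν⟫ - ⟪W12 φ F x, ν⟫ ^ 2)
        = (dens φ x ^ 2 * ⟪W11 φ F x, ν⟫) * (dens φ x ^ 2 * ⟪W22 φ F x, ν⟫) -
            (dens φ x ^ 2 * ⟪W12 φ F x, ν⟫) ^ 2 := by ring
      _ = (D₀ * D₀) * (D₁ * D₂ - D₃ * D₃) := by rw [a1, a2, a3]; ring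
      _ = _ := by
          rw [n0, q1, q2, ← mul_sub, hg]
          ring
  exact mul_left_cancel₀ (by positivity) key

omit hφ hI in
theorem d_inner (ν : R3) (v : P2) {x : P2} (hx : x ∈ U) :
    fderiv ℝ (fun y => ⟪F y, ν⟫) x v = ⟪pd v F x, ν⟫ := by
  rw [fderiv_inner_apply ℝ (differentiableAt_of hU hF hx) (differentiableAt_const ν)]
  simp [pd]

omit hφ hI in
theorem dd_inner (ν : R3) (v w : P2) {x : P2} (hx : x ∈ U) :
    fderiv ℝ (fun y => fderiv ℝ (fun z => ⟪F z, ν⟫) y w) x v = ⟪pd v (pd w F) x, ν⟫ := by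
  have h : (fun y => fderiv ℝ (fun z => ⟪F z, ν⟫) y w) =ᶠ[𝓝 x] fun y => ⟪pd w F y, ν⟫ := by
    have ev : ∀ᶠ y in 𝓝 x, y ∈ U := hU.mem_nhds hx
    exact ev.mono fun y hy => d_inner hU hF ν w hy
  rw [h.fderiv_eq]
  exact d_inner hU (contDiffOn_pd hU hF w) ν v hx

theorem darboux {x : P2} (hx : x ∈ U) {ν : R3} (hν : ‖ν‖ = 1) :
    Darboux 1 φ (fun y => ⟪F y, ν⟫) x := by
  have h := contract hU hφ hF hI hx ν
  rw [real_inner_self_eq_norm_sq, hν] at h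
  have e := fun v w : P2 => dd_inner hU hF ν v w hx
  have f := fun v : P2 => d_inner hU hF ν v hx
  simp only [W11, W12, W22, inner_add_left, inner_sub_left, real_inner_smul_left] at h
  have u1 : ∀ g : P2 → ℝ, d1 g = fun y => fderiv ℝ g y (1, 0) := fun g => rfl
  have u2 : ∀ g : P2 → ℝ, d2 g = fun y => fderiv ℝ g y (0, 1) := fun g => rfl
  simp only [Darboux, H11, H12, H22, gradSq, lap, u1, u2, e, f]
  simp only [e₁, e₂, u1, u2, dens, lap] at h ⊢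
  linear_combination h

end Isom

theorem darbouxOfIsom : DarbouxOfIsom :=
  fun _ _ _ _ hU hφ hF hI hν _ hx => darboux hU hφ hF hI hx hν

end Vale.Agent.P229.Geo
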