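import Vale.Agent.P229.Geo.Rings

/-!
# P229 seat A: from the island lemma to the final statement

If an isometric immersion exists near the origin, it sees a whole ring. On the arc of that ring the
second fundamental form cannot vanish identically (holonomy), and where it does not vanish an
island contradicts the island lemma.
-/

namespace Vale.Agent.P229.Geo

open scoped RealInnerProductSpace Topology
open Filter Complex

theorem continuous_polar : Continuous fun w : ℂ => ofC (exp w) :=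
  ofC.continuous.comp continuous_exp

theorem pd_eq_snd {U : Set P2} (hU : IsOpen U) {G : P2 → R3} (hG : ContDiffOn ℝ (⊤ : ℕ∞) G U)
    {x : P2} (hx : x ∈ U) (a b : P2) :
    pd a (pd b G) x = fderiv ℝ (fderiv ℝ G) x a b := by
  have hd : DifferentiableAt ℝ (fderiv ℝ G) x :=
    ((hG.fderiv_of_isOpen hU (m := (⊤ : ℕ∞)) (by simp)).contDiffAt
      (hU.mem_nhds hx)).differentiableAt (by simp)
  show fderiv ℝ (fun y => fderiv ℝ G y b) x a = _
  rw [fderiv_clm_apply hd (differentiableAt_const b)]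
  simp

theorem eq_coord (v : P2) : v = v.1 • e₁ + v.2 • e₂ := by
  ext <;> simp [e₁, e₂]

/-- The potential of a ring is flat to second order along the arc. -/
theorem phiZ_arc (H : IslandLemma) (n : ℕ) {θ : ℝ} (hθ : |θ| < Real.pi) :
    d1 (phiZ H n) (ofC (exp ⟨LL n, θ⟩)) = 0 ∧ d2 (phiZ H n) (ofC (exp ⟨LL n, θ⟩)) = 0 ∧
      lap (phiZ H n) (ofC (exp ⟨LL n, θ⟩)) = 0 := by
  have hc := contDiff_phiZ H n
  set p : ℕ → P2 := fun k => ofC (exp ⟨LL n + hh k / 2, θ⟩)
  have hh0 : Tendsto hh atTop (𝓝 0) :=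
    (tendsto_pow_atTop_nhds_zero_of_lt_one (by norm_num) (by norm_num)).comp
      (tendsto_add_atTop_nat 2)
  have hlim : Tendsto p atTop (𝓝 (ofC (exp ⟨LL n, θ⟩))) := by
    refine (continuous_polar.tendsto _).comp ?_
    have : Tendsto (fun k => ((LL n + hh k / 2 : ℝ) : ℂ) + θ * I) atTop
        (𝓝 (((LL n + 0 / 2 : ℝ) : ℂ) + θ * I)) :=
      ((continuous_ofReal.tendsto _).comp
        ((hh0.div_const 2).const_add (LL n))).add tendsto_const_nhds
    convert this using 2 with k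
    · apply Complex.ext <;> simp
    · apply Complex.ext <;> simp
  have hzero : ∀ k, phiZ H n =ᶠ[𝓝 (p k)] fun _ => 0 := by
    intro k
    obtain ⟨hs, he⟩ := lg_exp (w := ⟨LL n + hh k / 2, θ⟩) hθ
    have hmem : p k ∈ Gap n k := mem_gap.2 ⟨hs, by rw [he]; simp; linarith [hh_pos k]⟩
    filter_upwards [(isOpen_gap n k).mem_nhds hmem] with z hz
    exact phiZ_gap H hz
  have key : ∀ g : P2 → ℝ, Continuous g → (∀ k, g (p k) = 0) →
      g (ofC (exp ⟨LL n, θ⟩)) = 0 := by
    intro g hg h0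
    refine tendsto_nhds_unique ((hg.tendsto _).comp hlim) ?_
    simp [Function.comp_def, h0]
  have hd : ∀ (v : P2) (k : ℕ),
      (fun y => fderiv ℝ (phiZ H n) y v) =ᶠ[𝓝 (p k)] fun _ => (0 : ℝ) := by
    intro v k
    filter_upwards [Filter.EventuallyEq.fderiv (𝕜 := ℝ) (hzero k)] with y hy
    simp [hy, fderiv_fun_const]
  refine ⟨key _ (contDiff_dd hc (1, 0)).continuous fun k => (hd _ k).eq_of_nhds,
    key _ (contDiff_dd hc (0, 1)).continuous fun k => (hd _ k).eq_of_nhds, key _ ?_ fun k => ?_⟩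
  · exact ((contDiff_dd (contDiff_dd hc (1, 0)) (1, 0)).continuous.add
      (contDiff_dd (contDiff_dd hc (0, 1)) (0, 1)).continuous)
  · show fderiv ℝ (fun y => fderiv ℝ (phiZ H n) y (1, 0)) (p k) (1, 0) +
      fderiv ℝ (fun y => fderiv ℝ (phiZ H n) y (0, 1)) (p k) (0, 1) = 0
    simp [(hd (1, 0) k).fderiv_eq, (hd (0, 1) k).fderiv_eq]

/-- The chart sector of a ring. -/
def Sec (n : ℕ) : Set P2 := Slit ∩ {z | |(lg z).re - LL n| < 1 / 10 ∧ |(lg z).im| < AA n}

theorem mem_sec {n : ℕ} {z : P2} :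
    z ∈ Sec n ↔ z ∈ Slit ∧ |(lg z).re - LL n| < 1 / 10 ∧ |(lg z).im| < AA n := Iff.rfl

theorem isOpen_sec (n : ℕ) : IsOpen (Sec n) := by
  have : IsOpen {w : ℂ | |w.re - LL n| < 1 / 10 ∧ |w.im| < AA n} :=
    (isOpen_lt (by fun_prop : Continuous fun w : ℂ => |w.re - LL n|) continuous_const).inter
      (isOpen_lt (by fun_prop : Continuous fun w : ℂ => |w.im|) continuous_const)
  exact continuousOn_lg.isOpen_inter_preimage isOpen_slit this

theorem isOpen_band (n : ℕ) : IsOpen (Band n) := by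
  have : IsOpen {w : ℂ | |w.re - LL n| < 1 / 10} :=
    isOpen_lt (by fun_prop : Continuous fun w : ℂ => |w.re - LL n|) continuous_const
  exact continuousOn_lg.isOpen_inter_preimage isOpen_slit this

theorem sec_band {n : ℕ} {z : P2} (hz : z ∈ Sec n) : z ∈ Band n :=
  mem_band.2 ⟨(mem_sec.1 hz).1, (mem_sec.1 hz).2.1⟩

/-- A point of the arc where a diagonal normal curvature is nonzero contradicts an island. -/
theorem island_contra (H : IslandLemma) {n : ℕ} {G : P2 → R3}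
    (hG : ContDiffOn ℝ (⊤ : ℕ∞) G (Sec n)) (hI : IsIsom (phiZ H n) (Sec n) G)
    {θ : ℝ} (hθ : |θ| < AA n) (u : Bool)
    (hne : (if u then W22 (phiZ H n) G else W11 (phiZ H n) G) (ofC (exp ⟨LL n, θ⟩)) ≠ 0) :
    False := by
  set ph := phiZ H n with hph
  have hc : ContDiff ℝ (⊤ : ℕ∞) ph := contDiff_phiZ H n
  have hS := isOpen_sec n
  set W : P2 → R3 := if u then W22 ph G else W11 ph G with hW
  set zs : P2 := ofC (exp ⟨LL n, θ⟩) with hzs
  have hzsS : zs ∈ Sec n := by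
    obtain ⟨hs, he⟩ := lg_exp (w := ⟨LL n, θ⟩) (hθ.trans (AA_lt n))
    refine mem_sec.2 ⟨hs, ?_, ?_⟩ <;> rw [hzs, he]
    · simp
    · exact hθ
  have cp : ∀ v : P2, ContinuousOn (pd v G) (Sec n) := fun v =>
    (contDiffOn_pd hS hG v).continuousOn
  have cpp : ∀ v w : P2, ContinuousOn (pd v (pd w G)) (Sec n) := fun v w =>
    (contDiffOn_pd hS (contDiffOn_pd hS hG w) v).continuousOn
  have cd1 : ContinuousOn (d1 ph) (Sec n) := (contDiff_dd hc (1, 0)).continuous.continuousOn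
  have cd2 : ContinuousOn (d2 ph) (Sec n) := (contDiff_dd hc (0, 1)).continuous.continuousOn
  have cW : ContinuousOn W (Sec n) := by
    cases u <;> simp only [hW, if_true, Bool.false_eq_true, if_false]
    · exact ((cpp e₁ e₁).sub (cd1.smul (cp e₁))).add (cd2.smul (cp e₂))
    · exact ((cpp e₂ e₂).add (cd1.smul (cp e₁))).sub (cd2.smul (cp e₂))
  have hpos : 0 < ‖W zs‖ := norm_pos_iff.2 hne
  have hopen : IsOpen (Sec n ∩ (fun z => ‖W z‖) ⁻¹' Set.Ioi (‖W zs‖ / 2)) :=
    cW.norm.isOpen_inter_preimage hS isOpen_Ioi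
  obtain ⟨δ, hδ, hδb⟩ := Metric.nhds_basis_closedBall.mem_iff.1
    (hopen.mem_nhds ⟨hzsS, show ‖W zs‖ / 2 < ‖W zs‖ by linarith⟩)
  have hb : ∀ i : ℕ, ∃ B, ∀ z ∈ Metric.closedBall zs δ,
      ‖iteratedFDerivWithin ℝ i G (Sec n) z‖ ≤ B := fun i =>
    (isCompact_closedBall _ _).exists_bound_of_continuousOn
      ((hG.continuousOn_iteratedFDerivWithin (WithTop.coe_le_coe.2 le_top)
        hS.uniqueDiffOn).mono fun z hz => (hδb hz).1)
  choose B hB using hb
  set Bt : ℝ := ∑ i ∈ Finset.range 9, |B i|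
  obtain ⟨δ', hδ', hδw⟩ := Metric.continuous_iff.1 continuous_polar ⟨LL n, θ⟩ (δ / 2) (half_pos hδ)
  have hh0 : Tendsto hh atTop (𝓝 0) :=
    (tendsto_pow_atTop_nhds_zero_of_lt_one (by norm_num) (by norm_num)).comp
      (tendsto_add_atTop_nat 2)
  have hcc : Tendsto (fun m : ℕ => 1 / ((m : ℝ) + 1)) atTop (𝓝 0) :=
    tendsto_one_div_add_atTop_nhds_zero_nat
  obtain ⟨N, hN⟩ := eventually_atTop.1 (((hh0.eventually_lt_const (half_pos hδ)).and
    (hh0.eventually_lt_const (half_pos hδ'))).and ((hcc.eventually_lt_const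
    (half_pos hpos)).and ((tendsto_natCast_atTop_atTop (R := ℝ)).eventually_ge_atTop Bt)))
  have hA := AA_pos n
  obtain ⟨m, hm, hden⟩ := sq01_dense (x := θ / AA n)
    (by rw [abs_div, abs_of_pos hA, div_lt_one hA]; exact hθ)
    (show 0 < δ' / 2 / AA n by positivity) N
  obtain ⟨⟨hm1, hm2⟩, hm3, hm4⟩ := hN m hm
  set z0 : P2 := zc n m u with hz0
  have hd0 : dist z0 zs < δ / 2 := by
    refine hδw _ ?_
    rw [dist_eq_norm]
    refine (norm_le_abs_re_add_abs_im _).trans_lt ?_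
    have e1 : |(wc n m u - ⟨LL n, θ⟩).re| = hh m := by
      cases u <;> simp [wc, sgn, abs_of_pos (hh_pos m)]
    have e2 : |(wc n m u - ⟨LL n, θ⟩).im| < δ' / 2 := by
      have : (wc n m u - ⟨LL n, θ⟩).im = AA n * (sq01 m - θ / AA n) := by
        simp [wc]
        field_simp
      rw [this, abs_mul, abs_of_pos hA]
      rwa [lt_div_iff₀ hA, mul_comm] at hden
    linarith
  obtain ⟨hr0, hr1, hrB⟩ := rad_spec n m u
  have hball : Metric.ball z0 (rad n m u) ⊆ Metric.closedBall zs δ := by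
    intro z hz
    rw [Metric.mem_ball] at hz
    rw [Metric.mem_closedBall]
    linarith [dist_triangle z z0 zs]
  have hz0m : z0 ∈ Metric.ball z0 (rad n m u) := Metric.mem_ball_self hr0
  have hsub : Metric.ball z0 (rad n m u) ⊆ Sec n := fun z hz => (hδb (hball hz)).1
  have hW0 : ‖W zs‖ / 2 < ‖W z0‖ := (hδb (hball hz0m)).2
  have hWne : (0 : ℝ) < ‖W z0‖ := by linarith
  set ν : R3 := ‖W z0‖⁻¹ • W z0 with hν
  have hν1 : ‖ν‖ = 1 := by
    rw [hν, norm_smul, norm_inv, norm_norm, inv_mul_cancel₀ hWne.ne']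
  have hmem : z0 ∈ Sec n := hsub hz0m
  obtain ⟨⟨o1, o2⟩, -, o5, o6⟩ := W_orth hS hc hG hI hmem
  have oW : ⟪W z0, pd e₁ G z0⟫ = 0 ∧ ⟪W z0, pd e₂ G z0⟫ = 0 := by
    cases u <;> simp only [hW, if_true, Bool.false_eq_true, if_false]
    · exact ⟨o1, o2⟩
    · exact ⟨o5, o6⟩
  have oν : ⟪pd e₁ G z0, ν⟫ = 0 ∧ ⟪pd e₂ G z0, ν⟫ = 0 := by
    simp [hν, real_inner_smul_right, real_inner_comm (W z0), oW.1, oW.2]
  have hWν : ⟪W z0, ν⟫ = ‖W z0‖ := by
    rw [hν, real_inner_smul_right, real_inner_self_eq_norm_sq]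
    field_simp
  obtain ⟨-, -, -, -, hnot⟩ := (exists_psi H (n, m, u)).choose_spec
  refine hnot ⟨fun y => ⟪G y, ν⟫, ?_, ?_, ?_, ?_, ?_⟩
  · exact (hG.mono hsub).inner ℝ contDiffOn_const
  · intro z hz k hk
    have e : (fun y => ⟪G y, ν⟫) = innerSL ℝ ν ∘ G := by
      funext y
      simp [real_inner_comm]
    rw [e]
    refine ((innerSL ℝ ν).norm_iteratedFDeriv_comp_left
      (hG.contDiffAt (hS.mem_nhds (hsub hz))) (WithTop.coe_le_coe.2 le_top)).trans ?_
    rw [innerSL_apply_norm, hν1, one_mul, ← iteratedFDerivWithin_of_isOpen k hS (hsub hz)]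
    refine le_trans ((hB k z (hball hz)).trans (le_abs_self _)) (le_trans ?_ hm4)
    exact Finset.single_le_sum (f := fun a => |B a|) (fun a _ => abs_nonneg _)
      (Finset.mem_range.2 (by omega))
  · apply ContinuousLinearMap.ext
    intro v
    rw [d_inner hS hG ν v hmem, pd, eq_coord v, map_add, map_smul, map_smul, inner_add_left,
      real_inner_smul_left, real_inner_smul_left, show fderiv ℝ G z0 e₁ = pd e₁ G z0 from rfl,
      show fderiv ℝ G z0 e₂ = pd e₂ G z0 from rfl, oν.1, oν.2]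
    simp
  · have q1 : d1 (d1 fun y => ⟪G y, ν⟫) z0 = ⟪pd e₁ (pd e₁ G) z0, ν⟫ :=
      dd_inner hS hG ν e₁ e₁ hmem
    have q2 : d2 (d2 fun y => ⟪G y, ν⟫) z0 = ⟪pd e₂ (pd e₂ G) z0, ν⟫ :=
      dd_inner hS hG ν e₂ e₂ hmem
    show 1 / ((m : ℝ) + 1) ≤ if u then |d2 (d2 fun y => ⟪G y, ν⟫) z0|
      else |d1 (d1 fun y => ⟪G y, ν⟫) z0|
    rw [q1, q2]
    have : (if u then |⟪pd e₂ (pd e₂ G) z0, ν⟫| else |⟪pd e₁ (pd e₁ G) z0, ν⟫|) = ‖W z0‖ := by
      cases u <;>
        simp only [hW, if_true, Bool.false_eq_true, if_false, W11, W22] at hWν hWne ⊢ <;>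
        simp only [inner_add_left, inner_sub_left, real_inner_smul_left, oν.1, oν.2, mul_zero,
          sub_zero, add_zero] at hWν <;>
        rw [hWν, abs_of_pos hWne]
    rw [this]
    linarith
  · intro z hz
    refine darboux Metric.isOpen_ball (exists_psi H (n, m, u)).choose_spec.1 (hG.mono hsub)
      (fun y hy v w => ?_) hz hν1
    rw [hI y (hsub hy) v w, hph, phiZ_box H (hrB (Metric.ball_subset_closedBall hy))]
    rfl

theorem finalStatement_of_island (H : IslandLemma) : FinalStatement := by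
  refine ⟨phi H, contDiff_phi H, fun U hU h0 => ?_⟩
  rintro ⟨F, hF, hI⟩
  obtain ⟨ε, hε, hεU⟩ := Metric.isOpen_iff.1 hU 0 h0
  obtain ⟨n, hn⟩ := exists_pow_lt_of_lt_one (show 0 < ε / ((‖ofC‖ + 1) * 2) by positivity)
    (by norm_num : (1 / 2 : ℝ) < 1)
  have hdisc : Disc n ⊆ U := by
    intro x hx
    apply hεU
    rw [Metric.mem_ball, dist_zero_right]
    rw [mem_disc] at hx
    have h1 : ‖toC x‖ ≤ 2 * rr n := by
      have h2 : ‖pp n‖ = rr n := by rw [pp, Complex.norm_real, Real.norm_of_nonneg (rr_pos n).le]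
      have h3 := norm_le_norm_add_norm_sub' (toC x) (pp n)
      unfold ρ at hx
      linarith [rr_pos n]
    have h4 : ‖x‖ ≤ ‖ofC‖ * ‖toC x‖ := by
      conv_lhs => rw [← ofC_toC x]
      exact ofC.le_opNorm _
    rw [lt_div_iff₀ (by positivity)] at hn
    have h5 : ‖ofC‖ * ‖toC x‖ ≤ ‖ofC‖ * (2 * rr n) := by gcongr
    have : rr n = (1 / 2 : ℝ) ^ n := rfl
    nlinarith [rr_pos n, norm_nonneg ofC]
  set G := F ∘ Psi (qq n) (pp n) with hGd
  have hGB : ContDiffOn ℝ (⊤ : ℕ∞) G (Band n) := fun z hz =>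
    ((hF.contDiffAt (hU.mem_nhds (hdisc (band_disc hz)))).comp z
      (contDiffAt_Psi _ _ (mem_band.1 hz).1)).contDiffWithinAt
  have hS := isOpen_sec n
  have hB := isOpen_band n
  have hG : ContDiffOn ℝ (⊤ : ℕ∞) G (Sec n) := hGB.mono fun z hz => sec_band hz
  have hIG : IsIsom (phiZ H n) (Sec n) G :=
    isom_pullback hU hF hI (qq_pos n) fun z hz =>
      ⟨(mem_sec.1 hz).1, hdisc (band_disc (sec_band hz)),
        phi_pullback H (sec_band hz) (mem_sec.1 hz).2.2⟩
  have hA := AA_pos n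
  have hApi := AA_lt n
  set za : ℝ → P2 := fun θ => ofC (exp ⟨LL n, θ⟩) with hzad
  have za_band : ∀ θ, |θ| ≤ AA n → za θ ∈ Band n := by
    intro θ hθ
    obtain ⟨hs, he⟩ := lg_exp (w := ⟨LL n, θ⟩) (lt_of_le_of_lt hθ hApi)
    exact mem_band.2 ⟨hs, by rw [hzad]; simp only; rw [he]; simp⟩
  have za_sec : ∀ θ, |θ| < AA n → za θ ∈ Sec n := by
    intro θ hθ
    obtain ⟨hs, he⟩ := lg_exp (w := ⟨LL n, θ⟩) (hθ.trans hApi)
    refine mem_sec.2 ⟨hs, ?_, ?_⟩ <;> rw [hzad] <;> simp only <;> rw [he]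
    · simp
    · exact hθ
  have hzd : ∀ θ, HasDerivAt za (ofC (exp ⟨LL n, θ⟩ * I)) θ := by
    intro θ
    have h1 : HasDerivAt (fun t : ℝ => (LL n : ℂ) + t * I) I θ := by
      simpa using ((hasDerivAt_id θ).ofReal_comp.mul_const I).const_add (LL n : ℂ)
    have e : za = fun t : ℝ => ofC (exp ((LL n : ℂ) + t * I)) := by
      funext t
      simp only [hzad]
      congr 2
      apply Complex.ext <;> simp
    have e2 : ((LL n : ℂ) + θ * I) = ⟨LL n, θ⟩ := by apply Complex.ext <;> simp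
    rw [e, ← e2]
    exact ofC.hasFDerivAt.comp_hasDerivAt θ h1.cexp
  -- the second derivative vanishes on the open arc
  have hopenArc : ∀ θ ∈ Set.Ioo (-AA n) (AA n), fderiv ℝ (fderiv ℝ G) (za θ) = 0 := by
    intro θ hθ
    have hθ' : |θ| < AA n := abs_lt.2 hθ
    have hmem := za_sec θ hθ'
    have hc := contDiff_phiZ H n
    obtain ⟨p1, p2, p3⟩ := phiZ_arc H n (hθ'.trans hApi)
    have w1 : W11 (phiZ H n) G (za θ) = 0 := by
      by_contra h
      exact island_contra H hG hIG hθ' false h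
    have w2 : W22 (phiZ H n) G (za θ) = 0 := by
      by_contra h
      exact island_contra H hG hIG hθ' true h
    have w3 : W12 (phiZ H n) G (za θ) = 0 := by
      have h := gauss hS hc hG hIG hmem
      rw [show lap (phiZ H n) (za θ) = 0 from p3, w1, inner_zero_left, neg_zero, zero_mul,
        zero_sub, neg_eq_zero] at h
      exact inner_self_eq_zero.1 h
    simp only [W11, W12, W22, show d1 (phiZ H n) (za θ) = 0 from p1,
      show d2 (phiZ H n) (za θ) = 0 from p2, zero_smul, sub_zero, add_zero] at w1 w2 w3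
    have w4 : pd e₂ (pd e₁ G) (za θ) = 0 := by rw [pd_comm hS hG hmem]; exact w3
    rw [pd_eq_snd hS hG hmem] at w1 w2 w3 w4
    refine ContinuousLinearMap.ext fun v => ?_
    refine ContinuousLinearMap.ext fun w => ?_
    rw [eq_coord v, eq_coord w]
    simp [w1, w2, w3, w4]
  have hcl : ∀ θ ∈ Set.Icc (-AA n) (AA n), fderiv ℝ (fderiv ℝ G) (za θ) = 0 := by
    have hcont : ContinuousOn (fun θ => fderiv ℝ (fderiv ℝ G) (za θ))
        (Set.Icc (-AA n) (AA n)) := by
      refine ContinuousOn.comp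
        ((hGB.fderiv_of_isOpen hB (m := (⊤ : ℕ∞)) (by simp)).fderiv_of_isOpen hB
          (m := (⊤ : ℕ∞)) (by simp)).continuousOn ?_ fun θ hθ => za_band θ (abs_le.2 hθ)
      exact fun θ _ => (hzd θ).continuousAt.continuousWithinAt
    refine Set.EqOn.of_subset_closure (s := Set.Ioo (-AA n) (AA n))
      (fun θ hθ => hopenArc θ hθ) hcont continuousOn_const Set.Ioo_subset_Icc_self ?_
    rw [closure_Ioo (by linarith : (-AA n) ≠ AA n)]
  have hD : ∀ θ ∈ Set.Icc (-AA n) (AA n), HasDerivAt (fun t => fderiv ℝ G (za t)) 0 θ := by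
    intro θ hθ
    have hd : DifferentiableAt ℝ (fderiv ℝ G) (za θ) :=
      ((hGB.fderiv_of_isOpen hB (m := (⊤ : ℕ∞)) (by simp)).contDiffAt
        (hB.mem_nhds (za_band θ (abs_le.2 hθ)))).differentiableAt (by simp)
    have := hd.hasFDerivAt.comp_hasDerivAt θ (hzd θ)
    rw [hcl θ hθ] at this
    simpa [Function.comp_def] using this
  have heq : fderiv ℝ G (za (AA n)) = fderiv ℝ G (za (-AA n)) :=
    constant_of_has_deriv_right_zero (fun θ hθ => (hD θ hθ).continuousAt.continuousWithinAt)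
      (fun θ hθ => (hD θ (Set.Ico_subset_Icc_self hθ)).hasDerivWithinAt) _
      ⟨by linarith, le_rfl⟩
  -- the chain rule at both ends
  have hends : ∀ θ, |θ| ≤ AA n → fderiv ℝ G (za θ) =
      (fderiv ℝ F (Psi (qq n) (pp n) (za θ))).comp (mulP (dPsi (qq n) (za θ))) := fun θ hθ =>
    ((differentiableAt_of hU hF (hdisc (band_disc (za_band θ hθ)))).hasFDerivAt.comp _
      (hasFDerivAt_Psi _ _ (mem_band.1 (za_band θ hθ)).1)).fderiv
  have hlog : ∀ θ, |θ| ≤ AA n → log (toC (za θ)) = ⟨LL n, θ⟩ := fun θ hθ =>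
    (lg_exp (w := ⟨LL n, θ⟩) (lt_of_le_of_lt hθ hApi)).2
  have hAle : |AA n| ≤ AA n := (abs_of_pos hA).le
  have hAle' : |(-AA n)| ≤ AA n := by rw [abs_neg]; exact hAle
  have hexp : exp ((qq n : ℂ) * ⟨LL n, AA n⟩) = exp ((qq n : ℂ) * ⟨LL n, -AA n⟩) := by
    rw [exp_eq_exp_iff_exists_int]
    refine ⟨1, ?_⟩
    apply Complex.ext
    · simp
    · simp [qq_mul_AA]
      ring
  have hx : Psi (qq n) (pp n) (za (AA n)) = Psi (qq n) (pp n) (za (-AA n)) := by
    simp only [Psi, hlog _ hAle, hlog _ hAle', hexp]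
  rw [hends _ hAle, hends _ hAle', hx] at heq
  have hx' := hdisc (band_disc (za_band _ hAle'))
  set d : ℂ := dPsi (qq n) (za (AA n))
  set d' : ℂ := dPsi (qq n) (za (-AA n))
  have hz : fderiv ℝ F (Psi (qq n) (pp n) (za (-AA n))) (mulP d e₁ - mulP d' e₁) = 0 := by
    rw [map_sub, sub_eq_zero]
    exact DFunLike.congr_fun heq e₁
  have h7 := hI _ hx' (mulP d e₁ - mulP d' e₁) (mulP d e₁ - mulP d' e₁)
  rw [hz, inner_zero_left] at h7
  have hv : mulP d e₁ - mulP d' e₁ = 0 := by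
    rcases mul_eq_zero.1 h7.symm with h | h
    · exact absurd h (Real.exp_pos _).ne'
    · obtain ⟨a, b⟩ := mul_self_add_mul_self_eq_zero.1 h
      exact Prod.ext a b
  have hdd : d = d' := by
    have h9 := congrArg toC (sub_eq_zero.1 hv)
    have h10 : toC e₁ = 1 := by apply Complex.ext <;> simp [e₁]
    simpa [mulP_apply, h10] using h9
  have hne : exp (⟨LL n, AA n⟩ : ℂ) ≠ exp ⟨LL n, -AA n⟩ := by
    intro h
    obtain ⟨k, hk⟩ := exp_eq_exp_iff_exists_int.1 h
    have him := congrArg Complex.im hk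
    simp at him
    have h1 : (0 : ℝ) < k := by
      by_contra hle
      have := mul_nonpos_of_nonpos_of_nonneg (not_lt.1 hle) Real.two_pi_pos.le
      linarith
    have h2 : (k : ℝ) < 1 := by
      by_contra hle
      have := mul_le_mul_of_nonneg_right (not_lt.1 hle) Real.two_pi_pos.le
      linarith
    have h1' : (0 : ℤ) < k := by exact_mod_cast h1
    have h2' : k < (1 : ℤ) := by exact_mod_cast h2
    omega
  apply hne
  have h11 : (qq n : ℂ) ≠ 0 := by exact_mod_cast (qq_pos n).ne'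
  simp only [d, d', dPsi, hlog _ hAle, hlog _ hAle', hexp] at hdd
  have h12 := mul_left_cancel₀ (exp_ne_zero _) hdd
  have h13 := inv_inj.1 (mul_left_cancel₀ h11 h12)
  simpa [hzad] using h13

end Vale.Agent.P229.Geo
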