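import Vale.Agent.P229.Geo.Chart

/-!
# P229 seat A: the metric (rings and islands)

Ring `n` is centred at `(1/2)^n` and has holonomy given by the small exponent `cc n < 0`. Its chart
coordinates see the Euclidean metric; in them the islands sit in disjoint boxes of log-polar radius
`sgn u * hh m`, and their centres are dense along the arc of the ring.
-/

namespace Vale.Agent.P229.Geo

open scoped RealInnerProductSpace Topology
open Filter Complex

/-! ### A sequence all of whose tails are dense in the interval -/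

noncomputable def sq01 (m : ℕ) : ℝ :=
  if |(((Denumerable.eqv ℚ).symm (Nat.unpair m).1 : ℚ) : ℝ)| < 1
  then (((Denumerable.eqv ℚ).symm (Nat.unpair m).1 : ℚ) : ℝ) else 0

theorem abs_sq01 (m : ℕ) : |sq01 m| < 1 := by
  unfold sq01
  split_ifs with h
  · exact h
  · simp

theorem sq01_dense {x ε : ℝ} (hx : |x| < 1) (hε : 0 < ε) (N : ℕ) :
    ∃ m, N ≤ m ∧ |sq01 m - x| < ε := by
  obtain ⟨h1, h2⟩ := abs_lt.1 hx
  obtain ⟨r, r1, r2⟩ := exists_rat_btwn (max_lt (lt_min (by linarith : x - ε < x + ε)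
    (by linarith : x - ε < 1)) (lt_min (by linarith : (-1 : ℝ) < x + ε) (by norm_num : (-1 : ℝ) < 1)))
  obtain ⟨a1, a2⟩ := max_lt_iff.1 r1
  obtain ⟨b1, b2⟩ := lt_min_iff.1 r2
  refine ⟨Nat.pair (Denumerable.eqv ℚ r) N, Nat.right_le_pair _ _, ?_⟩
  unfold sq01
  simp only [Nat.unpair_pair, Equiv.symm_apply_apply]
  rw [if_pos (abs_lt.2 ⟨a2, b2⟩)]
  exact abs_lt.2 ⟨by linarith, by linarith⟩

/-! ### Rings -/

noncomputable def rr (n : ℕ) : ℝ := (1 / 2) ^ n

noncomputable def pp (n : ℕ) : ℂ := ((rr n : ℝ) : ℂ)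

noncomputable def ρ (n : ℕ) : ℝ := rr n / 32

theorem rr_pos (n : ℕ) : 0 < rr n := by unfold rr; positivity

theorem ρ_pos (n : ℕ) : 0 < ρ n := by have := rr_pos n; unfold ρ; positivity

noncomputable def plate : ContDiffBump (17 / 8 : ℝ) := ⟨15 / 8, 2, by norm_num, by norm_num⟩

noncomputable def tt (n : ℕ) (x : P2) : ℝ := normSq (toC x - pp n) / ρ n ^ 2

noncomputable def ringB (n : ℕ) (x : P2) : ℝ := plate (tt n x)

noncomputable def ringA (n : ℕ) (x : P2) : ℝ :=
  ringB n x * (Real.log (normSq (toC x - pp n)) / 2)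

theorem contDiff_normSq_sub (n : ℕ) :
    ContDiff ℝ (⊤ : ℕ∞) (fun x : P2 => normSq (toC x - pp n)) := by
  simp only [normSq_apply, sub_re, sub_im, toC_re, toC_im]
  fun_prop

theorem contDiff_tt (n : ℕ) : ContDiff ℝ (⊤ : ℕ∞) (tt n) :=
  (contDiff_normSq_sub n).div_const _

theorem contDiff_ringB (n : ℕ) : ContDiff ℝ (⊤ : ℕ∞) (ringB n) :=
  plate.contDiff.comp (contDiff_tt n)

theorem ringB_ne {n : ℕ} {x : P2} (h : ringB n x ≠ 0) : 1 / 8 < tt n x ∧ tt n x < 33 / 8 := by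
  have h' : tt n x ∈ Function.support plate := h
  rw [plate.support_eq, Metric.mem_ball, Real.dist_eq, abs_lt] at h'
  simp only [plate] at h'
  exact ⟨by linarith, by linarith⟩

theorem contDiff_ringA (n : ℕ) : ContDiff ℝ (⊤ : ℕ∞) (ringA n) := by
  rw [contDiff_iff_contDiffAt]
  intro x
  by_cases hx : tt n x < 1 / 8
  · refine (contDiffAt_const (c := (0 : ℝ))).congr_of_eventuallyEq ?_
    filter_upwards [(contDiff_tt n).continuous.continuousAt.eventually_lt continuousAt_const hx]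
      with y hy
    by_contra h
    exact absurd (ringB_ne (n := n) (x := y) (fun h0 => h (by simp [ringA, h0]))).1 (by linarith)
  · have h0 : normSq (toC x - pp n) ≠ 0 := by
      intro h0
      apply hx
      simp [tt, h0]
    exact (contDiff_ringB n).contDiffAt.mul
      ((ContDiffAt.log (contDiff_normSq_sub n).contDiffAt h0).div_const 2)

/-- The closed disc carrying ring `n` and its islands. -/
def Disc (n : ℕ) : Set P2 := {x | ‖toC x - pp n‖ ≤ 3 * ρ n}

theorem mem_disc {n : ℕ} {x : P2} : x ∈ Disc n ↔ ‖toC x - pp n‖ ≤ 3 * ρ n := Iff.rfl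

theorem isClosed_disc (n : ℕ) : IsClosed (Disc n) :=
  isClosed_le (toC.continuous.sub continuous_const).norm continuous_const

theorem isCompact_disc (n : ℕ) : IsCompact (Disc n) := by
  refine (isCompact_closedBall (ofC (pp n)) (‖ofC‖ * (3 * ρ n))).of_isClosed_subset
    (isClosed_disc n) fun x hx => ?_
  rw [Metric.mem_closedBall, dist_eq_norm]
  calc ‖x - ofC (pp n)‖ = ‖ofC (toC x - pp n)‖ := by rw [map_sub, ofC_toC]
    _ ≤ ‖ofC‖ * ‖toC x - pp n‖ := ofC.le_opNorm _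
    _ ≤ _ := by gcongr; exact hx

theorem disc_disjoint {n n' : ℕ} (hne : n ≠ n') {x : P2} (h : x ∈ Disc n) : x ∉ Disc n' := by
  intro h'
  wlog hlt : n < n' generalizing n n'
  · exact this (Ne.symm hne) h' h (by omega)
  have h2 : rr n' ≤ rr n / 2 := by
    unfold rr
    calc (1 / 2 : ℝ) ^ n' ≤ (1 / 2) ^ (n + 1) :=
          pow_le_pow_of_le_one (by norm_num) (by norm_num) (by omega)
      _ = _ := by ring
  have hp : ‖pp n - pp n'‖ = rr n - rr n' := by
    rw [pp, pp, ← ofReal_sub, Complex.norm_real, Real.norm_of_nonneg (by linarith [rr_pos n'])]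
  have : ‖pp n - pp n'‖ ≤ ‖toC x - pp n‖ + ‖toC x - pp n'‖ := by
    rw [norm_sub_rev (toC x) (pp n)]
    exact norm_sub_le_norm_sub_add_norm_sub _ _ _
  simp only [Disc, Set.mem_setOf_eq, ρ] at h h'
  linarith [rr_pos n, rr_pos n']

theorem tt_eq (n : ℕ) (x : P2) : tt n x = (‖toC x - pp n‖ / ρ n) ^ 2 := by
  rw [tt, normSq_eq_norm_sq, div_pow]

theorem mem_disc_of_ringB {n : ℕ} {x : P2} (h : ringB n x ≠ 0) : x ∈ Disc n := by
  have h2 := (ringB_ne h).2
  rw [tt_eq] at h2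
  have : ‖toC x - pp n‖ / ρ n < 3 := by
    nlinarith [div_nonneg (norm_nonneg (toC x - pp n)) (ρ_pos n).le]
  rw [div_lt_iff₀ (ρ_pos n)] at this
  exact this.le

theorem hasCompactSupport_ringB (n : ℕ) : HasCompactSupport (ringB n) :=
  HasCompactSupport.intro (isCompact_disc n) fun x hx => by
    by_contra h
    exact hx (mem_disc_of_ringB h)

theorem hasCompactSupport_ringA (n : ℕ) : HasCompactSupport (ringA n) :=
  HasCompactSupport.intro (isCompact_disc n) fun x hx => by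
    by_contra h
    exact hx (mem_disc_of_ringB fun h0 => h (by simp [ringA, h0]))

theorem bound_all {f : P2 → ℝ} (hf : ContDiff ℝ (⊤ : ℕ∞) f) (hs : HasCompactSupport f) (n : ℕ) :
    ∃ C, 0 ≤ C ∧ ∀ k : ℕ, k ≤ n → ∀ x, ‖iteratedFDeriv ℝ k f x‖ ≤ C := by
  have h : ∀ k : ℕ, ∃ C, ∀ x, ‖iteratedFDeriv ℝ k f x‖ ≤ C := fun k =>
    (hf.continuous_iteratedFDeriv (WithTop.coe_le_coe.2 le_top)).bounded_above_of_compact_support
      (hs.iteratedFDeriv k)
  choose C hC using h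
  refine ⟨∑ k ∈ Finset.range (n + 1), |C k|, Finset.sum_nonneg fun _ _ => abs_nonneg _,
    fun k hk x => ((hC k x).trans (le_abs_self _)).trans ?_⟩
  exact Finset.single_le_sum (f := fun a => |C a|) (fun a _ => abs_nonneg _)
    (Finset.mem_range.2 (Nat.lt_succ_of_le hk))

noncomputable def ringOf (c : ℝ) (n : ℕ) : P2 → ℝ :=
  c • ringA n + Real.log (1 + c) • ringB n

theorem exists_cc (n : ℕ) : ∃ c : ℝ, -(1 / 2) < c ∧ c < 0 ∧
    ∀ k : ℕ, k ≤ n → ∀ x, ‖iteratedFDeriv ℝ k (ringOf c n) x‖ ≤ (1 / 2) ^ n := by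
  obtain ⟨CA, hA0, hA⟩ := bound_all (contDiff_ringA n) (hasCompactSupport_ringA n) n
  obtain ⟨CB, hB0, hB⟩ := bound_all (contDiff_ringB n) (hasCompactSupport_ringB n) n
  have hg : ContinuousAt (fun c : ℝ => |c| * CA + |Real.log (1 + c)| * CB) 0 := by
    have : ContinuousAt (fun c : ℝ => Real.log (1 + c)) 0 :=
      ((continuous_const.add continuous_id).continuousAt).log (by simp)
    fun_prop
  have hlt : (fun c : ℝ => |c| * CA + |Real.log (1 + c)| * CB) 0 < (1 / 2 : ℝ) ^ n := by simp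
  have he : ∀ᶠ c in 𝓝[<] (0 : ℝ), |c| * CA + |Real.log (1 + c)| * CB < (1 / 2 : ℝ) ^ n :=
    nhdsWithin_le_nhds (hg.eventually_lt continuousAt_const hlt)
  have he2 : ∀ᶠ c in 𝓝[<] (0 : ℝ), -(1 / 2) < c :=
    nhdsWithin_le_nhds (lt_mem_nhds (by norm_num))
  obtain ⟨c, hc, h2, h3⟩ := (he.and (he2.and self_mem_nhdsWithin)).exists
  refine ⟨c, h2, h3, fun k hk x => ?_⟩
  have ha : ContDiffAt ℝ k (ringA n) x :=
    ((contDiff_ringA n).of_le (WithTop.coe_le_coe.2 le_top)).contDiffAt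
  have hb : ContDiffAt ℝ k (ringB n) x :=
    ((contDiff_ringB n).of_le (WithTop.coe_le_coe.2 le_top)).contDiffAt
  rw [ringOf, iteratedFDeriv_add_apply (f := c • ringA n) (g := Real.log (1 + c) • ringB n)
      (ha.const_smul c) (hb.const_smul (Real.log (1 + c))),
    iteratedFDeriv_const_smul_apply ha, iteratedFDeriv_const_smul_apply hb]
  refine le_trans ((norm_add_le _ _).trans ?_) hc.le
  rw [norm_smul, norm_smul, Real.norm_eq_abs, Real.norm_eq_abs]
  gcongr
  · exact hA k hk x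
  · exact hB k hk x

noncomputable def cc (n : ℕ) : ℝ := (exists_cc n).choose

noncomputable def ring' (n : ℕ) : P2 → ℝ := ringOf (cc n) n

/-- The inverse exponent. -/
noncomputable def ss (n : ℕ) : ℝ := 1 + cc n

noncomputable def qq (n : ℕ) : ℝ := (ss n)⁻¹

/-- The half angle of the arc. -/
noncomputable def AA (n : ℕ) : ℝ := Real.pi * ss n

/-- The logarithm of the radius of the arc. -/
noncomputable def LL (n : ℕ) : ℝ := ss n * Real.log (ρ n)

theorem cc_spec (n : ℕ) : -(1 / 2) < cc n ∧ cc n < 0 ∧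
    ∀ k : ℕ, k ≤ n → ∀ x, ‖iteratedFDeriv ℝ k (ring' n) x‖ ≤ (1 / 2) ^ n :=
  (exists_cc n).choose_spec

theorem ss_bounds (n : ℕ) : 1 / 2 < ss n ∧ ss n < 1 := by
  obtain ⟨h1, h2, -⟩ := cc_spec n
  unfold ss
  constructor <;> linarith

theorem ss_pos (n : ℕ) : 0 < ss n := by linarith [(ss_bounds n).1]

theorem qq_bounds (n : ℕ) : 1 < qq n ∧ qq n < 2 := by
  obtain ⟨h1, h2⟩ := ss_bounds n
  unfold qq
  refine ⟨(one_lt_inv₀ (ss_pos n)).2 h2, ?_⟩
  rw [inv_lt_comm₀ (ss_pos n) two_pos]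
  linarith

theorem qq_pos (n : ℕ) : 0 < qq n := by linarith [(qq_bounds n).1]

theorem ss_mul_qq (n : ℕ) : ss n * qq n = 1 := mul_inv_cancel₀ (ss_pos n).ne'

theorem qq_mul_LL (n : ℕ) : qq n * LL n = Real.log (ρ n) := by
  unfold LL
  rw [← mul_assoc, mul_comm (qq n), ss_mul_qq, one_mul]

theorem qq_mul_AA (n : ℕ) : qq n * AA n = Real.pi := by
  unfold AA
  rw [mul_comm Real.pi, ← mul_assoc, mul_comm (qq n), ss_mul_qq, one_mul]

theorem AA_pos (n : ℕ) : 0 < AA n := mul_pos Real.pi_pos (ss_pos n)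

theorem AA_lt (n : ℕ) : AA n < Real.pi := by
  have := (ss_bounds n).2
  unfold AA
  nlinarith [Real.pi_pos]

theorem contDiff_ring (n : ℕ) : ContDiff ℝ (⊤ : ℕ∞) (ring' n) := by
  unfold ring' ringOf
  exact ((contDiff_ringA n).const_smul (cc n)).add
    ((contDiff_ringB n).const_smul (Real.log (1 + cc n)))

theorem mem_disc_of_ring {n : ℕ} {x : P2} (h : ring' n x ≠ 0) : x ∈ Disc n :=
  mem_disc_of_ringB fun h0 => h (by simp [ring', ringOf, ringA, h0])

/-! ### The chart annulus -/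

noncomputable def lg (z : P2) : ℂ := log (toC z)

def Band (n : ℕ) : Set P2 := Slit ∩ {z | |(lg z).re - LL n| < 1 / 10}

theorem mem_band {n : ℕ} {z : P2} :
    z ∈ Band n ↔ z ∈ Slit ∧ |(lg z).re - LL n| < 1 / 10 := Iff.rfl

theorem continuousOn_lg : ContinuousOn lg Slit := fun _ hz =>
  ((Complex.contDiffAt_log (n := 0) hz).continuousAt.comp toC.continuous.continuousAt)
    |>.continuousWithinAt

theorem band_norm {n : ℕ} {z : P2} (hz : z ∈ Band n) :
    4 / 5 * ρ n ≤ ‖toC (Psi (qq n) (pp n) z) - pp n‖ ∧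
      ‖toC (Psi (qq n) (pp n) z) - pp n‖ ≤ 5 / 4 * ρ n := by
  obtain ⟨-, h⟩ := mem_band.1 hz
  obtain ⟨h1, h2⟩ := abs_lt.1 h
  obtain ⟨q1, q2⟩ := qq_bounds n
  have e : qq n * (lg z).re = Real.log (ρ n) + qq n * ((lg z).re - LL n) := by
    rw [← qq_mul_LL]; ring
  have d1 : -(1 / 5) ≤ qq n * ((lg z).re - LL n) := by nlinarith
  have d2 : qq n * ((lg z).re - LL n) ≤ 1 / 5 := by nlinarith
  rw [norm_Psi_sub, show (log (toC z)).re = (lg z).re from rfl, e, Real.exp_add,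
    Real.exp_log (ρ_pos n)]
  have hρ := ρ_pos n
  constructor
  · have := Real.add_one_le_exp (qq n * ((lg z).re - LL n))
    nlinarith
  · have h3 := Real.add_one_le_exp (-(qq n * ((lg z).re - LL n)))
    rw [Real.exp_neg] at h3
    have h4 : 0 < Real.exp (qq n * ((lg z).re - LL n)) := Real.exp_pos _
    have h5 : Real.exp (qq n * ((lg z).re - LL n)) * (4 / 5) ≤ 1 := by
      have h6 : 4 / 5 ≤ (Real.exp (qq n * ((lg z).re - LL n)))⁻¹ := by linarith
      rw [inv_eq_one_div, le_div_iff₀ h4] at h6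
      linarith
    nlinarith

theorem band_disc {n : ℕ} {z : P2} (hz : z ∈ Band n) : Psi (qq n) (pp n) z ∈ Disc n := by
  have := (band_norm hz).2
  have := ρ_pos n
  rw [mem_disc]
  linarith

theorem band_ring {n : ℕ} {z : P2} (hz : z ∈ Band n) :
    ring' n (Psi (qq n) (pp n) z) = cc n * (qq n * (lg z).re) + Real.log (ss n) := by
  have hρ := ρ_pos n
  obtain ⟨h1, h2⟩ := band_norm hz
  set x := Psi (qq n) (pp n) z with hx
  have hB : ringB n x = 1 := by
    refine plate.one_of_mem_closedBall ?_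
    rw [Metric.mem_closedBall, Real.dist_eq, tt_eq]
    simp only [plate]
    have a1 : 4 / 5 ≤ ‖toC x - pp n‖ / ρ n := by rw [le_div_iff₀ hρ]; linarith
    have a2 : ‖toC x - pp n‖ / ρ n ≤ 5 / 4 := by rw [div_le_iff₀ hρ]; linarith
    rw [abs_le]
    constructor <;> nlinarith
  have hl : Real.log (normSq (toC x - pp n)) / 2 = qq n * (lg z).re := by
    rw [normSq_eq_norm_sq, hx, norm_Psi_sub, Real.log_pow, Real.log_exp]
    simp [lg]
  simp [ring', ringOf, ringA, hB, hl, ss]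

/-! ### Boxes of the islands -/

noncomputable def hh (m : ℕ) : ℝ := (1 / 4) ^ (m + 2)

def sgn (u : Bool) : ℝ := if u then 1 else -1

theorem hh_pos (m : ℕ) : 0 < hh m := by unfold hh; positivity

theorem hh_le (m : ℕ) : hh m ≤ 1 / 16 := by
  unfold hh
  calc (1 / 4 : ℝ) ^ (m + 2) ≤ (1 / 4) ^ 2 :=
        pow_le_pow_of_le_one (by norm_num) (by norm_num) (by omega)
    _ = _ := by norm_num

theorem hh_lt {m k : ℕ} (h : m < k) : hh k ≤ hh m / 4 := by
  unfold hh
  calc (1 / 4 : ℝ) ^ (k + 2) ≤ (1 / 4) ^ (m + 2 + 1) :=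
        pow_le_pow_of_le_one (by norm_num) (by norm_num) (by omega)
    _ = _ := by ring

def Box (n m : ℕ) (u : Bool) : Set P2 :=
  Slit ∩ {z | |(lg z).re - (LL n + sgn u * hh m)| < hh m / 8 ∧ |(lg z).im| < AA n}

theorem mem_box {n m : ℕ} {u : Bool} {z : P2} :
    z ∈ Box n m u ↔ z ∈ Slit ∧ |(lg z).re - (LL n + sgn u * hh m)| < hh m / 8 ∧
      |(lg z).im| < AA n := Iff.rfl

theorem isOpen_box (n m : ℕ) (u : Bool) : IsOpen (Box n m u) := by
  have : IsOpen {w : ℂ | |w.re - (LL n + sgn u * hh m)| < hh m / 8 ∧ |w.im| < AA n} :=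
    (isOpen_lt (by fun_prop : Continuous fun w : ℂ => |w.re - (LL n + sgn u * hh m)|)
      continuous_const).inter
      (isOpen_lt (by fun_prop : Continuous fun w : ℂ => |w.im|) continuous_const)
  exact continuousOn_lg.isOpen_inter_preimage isOpen_slit this

theorem box_band {n m : ℕ} {u : Bool} {z : P2} (hz : z ∈ Box n m u) : z ∈ Band n := by
  obtain ⟨hs, h, -⟩ := mem_box.1 hz
  refine mem_band.2 ⟨hs, ?_⟩
  obtain ⟨h1, h2⟩ := abs_lt.1 h
  have := hh_le m
  have := hh_pos m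
  rw [abs_lt]
  cases u <;> simp [sgn] at h1 h2 <;> constructor <;> linarith

theorem box_disjoint {n m m' : ℕ} {u u' : Bool} (hne : (m, u) ≠ (m', u')) {z : P2}
    (h : z ∈ Box n m u) : z ∉ Box n m' u' := by
  intro h'
  obtain ⟨a1, a2⟩ := abs_lt.1 (mem_box.1 h).2.1
  obtain ⟨b1, b2⟩ := abs_lt.1 (mem_box.1 h').2.1
  have := hh_pos m
  have := hh_pos m'
  rcases lt_trichotomy m m' with hm | hm | hm
  · have := hh_lt hm
    cases u <;> cases u' <;> simp [sgn] at a1 a2 b1 b2 <;> linarith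
  · subst hm
    have hu : u ≠ u' := fun hu => hne (by rw [hu])
    cases u <;> cases u' <;> simp [sgn] at a1 a2 b1 b2 <;>
      first | linarith | exact hu rfl
  · have := hh_lt hm
    cases u <;> cases u' <;> simp [sgn] at a1 a2 b1 b2 <;> linarith

noncomputable def wc (n m : ℕ) (u : Bool) : ℂ :=
  ⟨LL n + sgn u * hh m, AA n * sq01 m⟩

noncomputable def zc (n m : ℕ) (u : Bool) : P2 := ofC (exp (wc n m u))

theorem lg_exp {w : ℂ} (h : |w.im| < Real.pi) :
    ofC (exp w) ∈ Slit ∧ lg (ofC (exp w)) = w := by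
  obtain ⟨h1, h2⟩ := abs_lt.1 h
  refine ⟨?_, ?_⟩
  · show toC (ofC (exp w)) ∈ slitPlane
    rw [toC_ofC]
    exact exp_mem_slit h
  · rw [lg, toC_ofC, log_exp h1 h2.le]

theorem wc_im (n m : ℕ) (u : Bool) : |(wc n m u).im| < AA n := by
  simp only [wc, abs_mul, abs_of_pos (AA_pos n)]
  nlinarith [abs_sq01 m, AA_pos n, abs_nonneg (sq01 m)]

theorem zc_mem (n m : ℕ) (u : Bool) : zc n m u ∈ Box n m u := by
  obtain ⟨hs, he⟩ := lg_exp ((wc_im n m u).trans (AA_lt n))
  refine mem_box.2 ⟨hs, ?_⟩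
  rw [zc, he]
  refine ⟨?_, wc_im n m u⟩
  have := hh_pos m
  simp [wc]
  linarith

theorem exists_rad (n m : ℕ) (u : Bool) :
    ∃ r, 0 < r ∧ r ≤ hh m ∧ Metric.closedBall (zc n m u) r ⊆ Box n m u := by
  obtain ⟨r, hr, hb⟩ := Metric.isOpen_iff.1 (isOpen_box n m u) _ (zc_mem n m u)
  exact ⟨min (r / 2) (hh m), lt_min (by linarith) (hh_pos m), min_le_right _ _,
    (Metric.closedBall_subset_ball ((min_le_left _ _).trans_lt (by linarith))).trans hb⟩

noncomputable def rad (n m : ℕ) (u : Bool) : ℝ := (exists_rad n m u).choose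

theorem rad_spec (n m : ℕ) (u : Bool) :
    0 < rad n m u ∧ rad n m u ≤ hh m ∧ Metric.closedBall (zc n m u) (rad n m u) ⊆ Box n m u :=
  (exists_rad n m u).choose_spec

/-- The domain of the inverse chart. -/
def Cut (n : ℕ) : Set P2 := {x | toC x - pp n ∈ slitPlane}

theorem psi_inv {n : ℕ} {z : P2} (hz : z ∈ Slit) (h : |(lg z).im| < AA n) :
    Psi (qq n) (pp n) z ∈ Cut n ∧ Phi (ss n) (pp n) (Psi (qq n) (pp n) z) = z := by
  refine Phi_Psi (ss_mul_qq n) hz ?_
  rw [abs_mul, abs_of_pos (qq_pos n), ← log_im, ← qq_mul_AA n]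
  exact mul_lt_mul_of_pos_left h (qq_pos n)

/-- The image of a closed ball of an island. -/
def Spot (n m : ℕ) (u : Bool) : Set P2 :=
  Psi (qq n) (pp n) '' Metric.closedBall (zc n m u) (rad n m u)

theorem isCompact_spot (n m : ℕ) (u : Bool) : IsCompact (Spot n m u) :=
  (isCompact_closedBall _ _).image_of_continuousOn fun _ hz =>
    (continuousAt_Psi _ _ ((rad_spec n m u).2.2 hz).1).continuousWithinAt

theorem spot_cut (n m : ℕ) (u : Bool) : Spot n m u ⊆ Cut n := by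
  rintro _ ⟨z, hz, rfl⟩
  have h := (rad_spec n m u).2.2 hz
  exact (psi_inv h.1 (mem_box.1 h).2.2).1

theorem spot_disc (n m : ℕ) (u : Bool) : Spot n m u ⊆ Disc n := by
  rintro _ ⟨z, hz, rfl⟩
  exact band_disc (box_band ((rad_spec n m u).2.2 hz))

theorem spot_pre {n m : ℕ} {u : Bool} {ψ : P2 → ℝ}
    (hs : tsupport ψ ⊆ Metric.closedBall (zc n m u) (rad n m u)) {x : P2} (hx : x ∈ Cut n)
    (h : Phi (ss n) (pp n) x ∈ tsupport ψ) : x ∈ Spot n m u :=
  ⟨_, hs h, Psi_Phi (by rw [mul_comm]; exact ss_mul_qq n)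
    (by rw [abs_of_pos (ss_pos n)]; exact (ss_bounds n).2) hx⟩

noncomputable def wgt (i : ℕ × ℕ × Bool) : ℝ := (1 / 2) ^ Encodable.encode i

theorem exists_psi (H : IslandLemma) (i : ℕ × ℕ × Bool) :
    ∃ ψ : P2 → ℝ, ContDiff ℝ (⊤ : ℕ∞) ψ ∧
      tsupport ψ ⊆ Metric.closedBall (zc i.1 i.2.1 i.2.2) (rad i.1 i.2.1 i.2.2) ∧
      (∀ x, ∀ k : ℕ, k ≤ Encodable.encode i → ‖iteratedFDeriv ℝ k ψ x‖ ≤ wgt i) ∧
      (∀ x, ∀ k : ℕ, k ≤ Encodable.encode i →
        ‖iteratedFDeriv ℝ k (push (Cut i.1) (Phi (ss i.1) (pp i.1)) ψ) x‖ ≤ wgt i) ∧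
      ¬∃ ζ : P2 → ℝ,
        ContDiffOn ℝ (⊤ : ℕ∞) ζ (Metric.ball (zc i.1 i.2.1 i.2.2) (rad i.1 i.2.1 i.2.2)) ∧
        (∀ x ∈ Metric.ball (zc i.1 i.2.1 i.2.2) (rad i.1 i.2.1 i.2.2), ∀ k : ℕ, k ≤ 8 →
          ‖iteratedFDeriv ℝ k ζ x‖ ≤ (i.2.1 : ℝ)) ∧
        fderiv ℝ ζ (zc i.1 i.2.1 i.2.2) = 0 ∧
        1 / ((i.2.1 : ℝ) + 1) ≤ (if i.2.2 then |d2 (d2 ζ) (zc i.1 i.2.1 i.2.2)|
          else |d1 (d1 ζ) (zc i.1 i.2.1 i.2.2)|) ∧
        ∀ x ∈ Metric.ball (zc i.1 i.2.1 i.2.2) (rad i.1 i.2.1 i.2.2), Darboux 1 ψ ζ x := by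
  obtain ⟨n, m, u⟩ := i
  obtain ⟨A, hA1, hA⟩ := push_bound (isOpen_shiftSlit (pp n)) (contDiffOn_Phi (ss n) (pp n))
    (isCompact_spot n m u) (spot_cut n m u) (Encodable.encode (n, m, u))
  have hw : 0 < wgt (n, m, u) := by unfold wgt; positivity
  have hA0 : (0 : ℝ) < A := by linarith
  obtain ⟨ψ, h1, h2, h3, h4⟩ := H (zc n m u) (rad n m u) (1 / ((m : ℝ) + 1)) (m : ℝ)
    (wgt (n, m, u) / A) (Encodable.encode (n, m, u)) u (rad_spec n m u).1 (by positivity)
    (by positivity)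
  have hs := h2.trans Metric.ball_subset_closedBall
  refine ⟨ψ, h1, hs, fun x k hk => (h3 x k hk).trans (div_le_self hw.le hA1), fun x k hk => ?_, h4⟩
  refine (hA ψ _ h1 (by positivity) h3 (fun y hy hy' => spot_pre hs hy hy') x k hk).trans ?_
  rw [mul_div_cancel₀ _ hA0.ne']

variable (H : IslandLemma)

noncomputable def psi (i : ℕ × ℕ × Bool) : P2 → ℝ := (exists_psi H i).choose

noncomputable def isl (i : ℕ × ℕ × Bool) : P2 → ℝ :=
  push (Cut i.1) (Phi (ss i.1) (pp i.1)) (psi H i)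

theorem psi_supp (i : ℕ × ℕ × Bool) {z : P2} (h : psi H i z ≠ 0) :
    z ∈ Box i.1 i.2.1 i.2.2 :=
  (rad_spec _ _ _).2.2 ((exists_psi H i).choose_spec.2.1 (subset_tsupport _ h))

theorem contDiff_isl (i : ℕ × ℕ × Bool) : ContDiff ℝ (⊤ : ℕ∞) (isl H i) :=
  contDiff_push (isOpen_shiftSlit _) (contDiffOn_Phi _ _) (exists_psi H i).choose_spec.1
    (isCompact_spot i.1 i.2.1 i.2.2).isClosed (spot_cut _ _ _)
    fun _ hx h => spot_pre (exists_psi H i).choose_spec.2.1 hx h

theorem isl_supp (i : ℕ × ℕ × Bool) {x : P2} (h : isl H i x ≠ 0) : x ∈ Disc i.1 :=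
  spot_disc _ i.2.1 i.2.2 (tsupport_push (isCompact_spot i.1 i.2.1 i.2.2).isClosed
    (fun _ hx h' => spot_pre (exists_psi H i).choose_spec.2.1 hx h') (subset_tsupport _ h))

theorem summable_wgt : Summable wgt :=
  summable_geometric_two.comp_injective Encodable.encode_injective

theorem eventually_le_encode (k : ℕ) :
    ∀ᶠ i : ℕ × ℕ × Bool in Filter.cofinite, k ≤ Encodable.encode i := by
  rw [Filter.eventually_cofinite]
  exact ((Set.finite_lt_nat k).preimage Encodable.encode_injective.injOn).subset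
    fun i hi => not_le.1 hi

/-- The pulled back potential of ring `n`. -/
noncomputable def phiZ (n : ℕ) (z : P2) : ℝ := ∑' j : ℕ × Bool, psi H (n, j) z

/-- The potential of the metric. -/
noncomputable def phi (x : P2) : ℝ := (∑' n, ring' n x) + ∑' i, isl H i x

theorem contDiff_phiZ (n : ℕ) : ContDiff ℝ (⊤ : ℕ∞) (phiZ H n) := by
  have hinj : Function.Injective (fun j : ℕ × Bool => ((n, j) : ℕ × ℕ × Bool)) :=
    fun a b h => by simpa using h
  refine contDiff_tsum_of_eventually (v := fun _ j => wgt (n, j))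
    (fun j => (exists_psi H (n, j)).choose_spec.1) (fun _ _ => summable_wgt.comp_injective hinj)
    fun k _ => ?_
  filter_upwards [hinj.tendsto_cofinite.eventually (eventually_le_encode k)] with j hj
  exact fun z => (exists_psi H (n, j)).choose_spec.2.2.1 z k hj

theorem contDiff_phi : ContDiff ℝ (⊤ : ℕ∞) (phi H) := by
  refine ContDiff.add ?_ ?_
  · refine contDiff_tsum_of_eventually (v := fun _ n => (1 / 2 : ℝ) ^ n) contDiff_ring
      (fun _ _ => summable_geometric_two) fun k _ => ?_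
    rw [Filter.eventually_cofinite]
    refine (Set.finite_lt_nat k).subset fun n hn => ?_
    by_contra hle
    exact hn fun x => (cc_spec n).2.2 k (not_lt.1 hle) x
  · refine contDiff_tsum_of_eventually (v := fun _ i => wgt i) (contDiff_isl H)
      (fun _ _ => summable_wgt) fun k _ => ?_
    filter_upwards [eventually_le_encode k] with i hi
    exact fun x => (exists_psi H i).choose_spec.2.2.2.1 x k hi

theorem phi_pullback {n : ℕ} {z : P2} (hz : z ∈ Band n) (ha : |(lg z).im| < AA n) :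
    phi H (Psi (qq n) (pp n) z) + (qq n - 1) * (log (toC z)).re + Real.log (qq n) =
      phiZ H n z := by
  have hd := band_disc hz
  have e1 : ∑' k, ring' k (Psi (qq n) (pp n) z) = ring' n (Psi (qq n) (pp n) z) :=
    tsum_eq_single n fun k hk => by
      by_contra h
      exact disc_disjoint hk (mem_disc_of_ring h) hd
  have hinj : Function.Injective (fun j : ℕ × Bool => ((n, j) : ℕ × ℕ × Bool)) :=
    fun a b h => by simpa using h
  have hsupp : Function.support (fun i => isl H i (Psi (qq n) (pp n) z)) ⊆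
      Set.range (fun j : ℕ × Bool => ((n, j) : ℕ × ℕ × Bool)) := by
    intro i hi
    by_cases h : i.1 = n
    · exact ⟨i.2, by simp [← h]⟩
    · exact absurd hd (disc_disjoint h (isl_supp H i hi))
  obtain ⟨hcut, hinv⟩ := psi_inv hz.1 ha
  have e2 : ∑' i, isl H i (Psi (qq n) (pp n) z) = phiZ H n z := by
    rw [← hinj.tsum_eq hsupp]
    refine tsum_congr fun j => ?_
    simp only [isl, push, if_pos hcut, hinv]
  have hl : Real.log (qq n) = -Real.log (ss n) := by rw [qq, Real.log_inv]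
  rw [phi, e1, e2, band_ring hz, hl]
  have : cc n * qq n + qq n - 1 = 0 := by
    have := ss_mul_qq n
    unfold ss at this
    linarith
  unfold lg
  linear_combination (log (toC z)).re * this

theorem phiZ_box {n m : ℕ} {u : Bool} {z : P2} (hz : z ∈ Box n m u) :
    phiZ H n z = psi H (n, m, u) z := by
  have h0 : ∀ j : ℕ × Bool, j ≠ (m, u) → psi H (n, j) z = 0 := fun j hj => by
    by_contra h
    exact box_disjoint (Ne.symm hj) hz (psi_supp H (n, j) h)
  unfold phiZ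
  exact tsum_eq_single (f := fun j : ℕ × Bool => psi H (n, j) z) (m, u) h0

/-- The gaps between the islands. -/
def Gap (n k : ℕ) : Set P2 :=
  Slit ∩ {z | |(lg z).re - (LL n + hh k / 2)| < hh k / 16}

theorem mem_gap {n k : ℕ} {z : P2} :
    z ∈ Gap n k ↔ z ∈ Slit ∧ |(lg z).re - (LL n + hh k / 2)| < hh k / 16 := Iff.rfl

theorem isOpen_gap (n k : ℕ) : IsOpen (Gap n k) := by
  have : IsOpen {w : ℂ | |w.re - (LL n + hh k / 2)| < hh k / 16} :=
    isOpen_lt (by fun_prop : Continuous fun w : ℂ => |w.re - (LL n + hh k / 2)|) continuous_const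
  exact continuousOn_lg.isOpen_inter_preimage isOpen_slit this

theorem phiZ_gap {n k : ℕ} {z : P2} (hz : z ∈ Gap n k) : phiZ H n z = 0 := by
  refine (tsum_congr fun j => ?_).trans (tsum_zero (α := ℝ) (β := ℕ × Bool))
  show psi H (n, j) z = 0
  by_contra h
  obtain ⟨m, u⟩ := j
  obtain ⟨a1, a2⟩ := abs_lt.1 (mem_gap.1 hz).2
  obtain ⟨b1, b2⟩ := abs_lt.1 (mem_box.1 (psi_supp H _ h)).2.1
  have := hh_pos m
  have := hh_pos k
  cases u
  · simp [sgn] at b1 b2
    linarith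
  · simp [sgn] at b1 b2
    rcases lt_trichotomy m k with hm | hm | hm
    · linarith [hh_lt hm]
    · subst hm
      linarith
    · linarith [hh_lt hm]

end Vale.Agent.P229.Geo
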